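import Crest.Agent.KEP.Main

/-! Existence of full group C⋆-algebras and of the Cuntz algebra. -/

set_option autoImplicit false
open scoped InnerProductSpace
open Crest.AnalysisR.CStarEmbedding

namespace Crest.Agent.KEP

theorem exists_full (G : Type) [Group G] :
    ∃ (A : Type) (_ : CStarAlgebra A) (u : G →* unitary A), IsFullGroupCStar A u := by
  let R : Set (Tm G) := {r | (∃ g h, r = vr (g * h) - vr g * vr h) ∨ (∃ g, r = vs g * vr g - 1) ∨
    (∃ g, r = vr g * vs g - 1) ∨ r = vr 1 - 1}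
  have hR : ∀ (B : Type) [CStarAlgebra B] (f : G → B), (∀ r ∈ R, ev f r = 0) ↔
      (∀ g h, f (g * h) = f g * f h) ∧ (∀ g, star (f g) * f g = 1) ∧ (∀ g, f g * star (f g) = 1) ∧
        f 1 = 1 := fun B _ f => by
    refine ⟨fun h => ⟨fun g k => ?_, fun g => ?_, fun g => ?_, ?_⟩, ?_⟩
    · simpa [sub_eq_zero] using h _ (Or.inl ⟨g, k, rfl⟩)
    · simpa [sub_eq_zero] using h _ (Or.inr (Or.inl ⟨g, rfl⟩))
    · simpa [sub_eq_zero] using h _ (Or.inr (Or.inr (Or.inl ⟨g, rfl⟩)))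
    · simpa [sub_eq_zero] using h _ (Or.inr (Or.inr (Or.inr rfl)))
    · rintro ⟨h1, h2, h3, h4⟩ r (⟨g, k, rfl⟩ | ⟨g, rfl⟩ | ⟨g, rfl⟩ | rfl) <;> simp [*]
  obtain ⟨A, _, u, h1, h2, h3⟩ := exists_univ R
    { B := ℂ, f := fun _ => 1, rel := (hR ℂ _).2 (by simp) }
    fun B _ f h g => norm_le_one_of (((hR B f).1 h).2.1 g)
  obtain ⟨h4, h5, h6, h7⟩ := (hR A u).1 h1
  refine ⟨A, inferInstance,
    { toFun := fun g => ⟨u g, h5 g, h6 g⟩
      map_one' := Subtype.ext h7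
      map_mul' := fun g h => Subtype.ext (h4 g h) }, h2, fun B _ w => h3 B (fun g => w g)
        ((hR B _).2 ⟨fun g h => by simp, fun g => (w g).2.1, fun g => (w g).2.2, by simp⟩)⟩

theorem exists_O2 : ∃ (O : Type) (_ : CStarAlgebra O) (s : Fin 2 → O), IsCuntzTwo O (s 0) (s 1) ∧
    Nontrivial O ∧ (∀ i k, star (s i) * s k = if i = k then 1 else 0) ∧
    ∑ i, s i * star (s i) = 1 ∧ (StarAlgebra.adjoin ℂ (Set.range s)).topologicalClosure = ⊤ ∧
    ∃ (H : Type) (_ : NormedAddCommGroup H) (_ : InnerProductSpace ℂ H) (_ : CompleteSpace H)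
      (ρ : O →⋆ₐ[ℂ] (H →L[ℂ] H)) (v₀ : H), Orthonormal ℂ fun μ => ρ (sw s μ) v₀ := by
  obtain ⟨H, _, _, _, S, v₀, hS, hS1, hV⟩ := exists_cuntz
  have hv : v₀ ≠ 0 := by simpa using hV.ne_zero []
  have : Nontrivial (H →L[ℂ] H) := ⟨1, 0, fun h => hv (by simpa using DFunLike.congr_fun h v₀)⟩
  let R : Set (Tm (Fin 2)) := {r | (∃ i, r = vs i * vr i - 1) ∨ r = vr 0 * vs 0 + vr 1 * vs 1 - 1}
  have hR : ∀ (B : Type) [CStarAlgebra B] (f : Fin 2 → B), (∀ r ∈ R, ev f r = 0) ↔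
      (∀ i, star (f i) * f i = 1) ∧ f 0 * star (f 0) + f 1 * star (f 1) = 1 := fun B _ f => by
    refine ⟨fun h => ⟨fun i => ?_, ?_⟩, ?_⟩
    · simpa [sub_eq_zero] using h _ (Or.inl ⟨i, rfl⟩)
    · simpa [sub_eq_zero] using h _ (Or.inr rfl)
    · rintro ⟨h1, h2⟩ r (⟨g, rfl⟩ | rfl) <;> simp [*]
  have hS2 := (hR _ S).2 ⟨fun i => by simp [hS], by simpa using hS1⟩
  obtain ⟨O, _, s, h1, h2, h3⟩ := exists_univ R { B := H →L[ℂ] H, f := S, rel := hS2 }
    fun B _ f h g => norm_le_one_of (((hR B f).1 h).1 g)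
  obtain ⟨h4, h5⟩ := (hR O s).1 h1
  obtain ⟨ρ, hρ⟩ := h3 _ S hS2
  have h6 : star (s 0) * s 1 = 0 := by
    rw [← CStarRing.mul_star_self_eq_zero_iff]
    have : star (s 0) * (s 0 * star (s 0) + s 1 * star (s 1)) * s 0 = 1 := by rw [h5, mul_one, h4]
    rw [mul_add, add_mul, ← mul_assoc, h4, one_mul, h4, add_eq_left] at this
    simpa [mul_assoc] using this
  have h7 : star (s 1) * s 0 = 0 := by simpa using congrArg star h6
  have hr : Set.range s = {s 0, s 1} := by ext; simp [Fin.exists_fin_two, eq_comm]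
  have h8 : ∀ μ, ρ (sw s μ) = sw S μ := fun μ => by
    induction μ with
    | nil => simp
    | cons i μ ih => simp [ih, hρ]
  refine ⟨O, inferInstance, s, ⟨h4 0, h4 1, h5, hr ▸ h2, fun B _ t₁ t₂ e1 e2 e3 => ?_⟩,
    ρ.toRingHom.domain_nontrivial, fun i k => ?_, by simpa using h5, h2, H, inferInstance,
    inferInstance, inferInstance, ρ, v₀, by simpa only [h8] using hV⟩
  · obtain ⟨φ, hφ⟩ := h3 B ![t₁, t₂] ((hR B _).2 ⟨fun i => by fin_cases i <;> simpa, by simpa⟩)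
    exact ⟨φ, hφ 0, hφ 1⟩
  · fin_cases i <;> fin_cases k <;> simp [h4, h6, h7]

end Crest.Agent.KEP
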