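import Crest.Agent.NAI.Hilb

/-! Finite-dimensional approximation in the Cuntz algebra. -/

set_option autoImplicit false
set_option linter.unusedSectionVars false
open scoped InnerProductSpace
open Filter Topology

namespace Crest.Agent.KEP

section
variable {O : Type} [CStarAlgebra O] (s : Fin 2 → O)

/-- the isometry attached to a word -/
def sw (μ : List (Fin 2)) : O := (μ.map s).prod

@[simp] lemma sw_nil : sw s [] = 1 := rfl
@[simp] lemma sw_cons (i : Fin 2) (μ : List (Fin 2)) : sw s (i :: μ) = s i * sw s μ := by simp [sw]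

noncomputable def wds (j : ℕ) : Finset (List (Fin 2)) := (List.finite_length_eq (Fin 2) j).toFinset

lemma mem_wds {j : ℕ} {μ : List (Fin 2)} : μ ∈ wds j ↔ μ.length = j := by simp [wds]

lemma sum_wds (h1 : ∑ i, s i * star (s i) = 1) (j : ℕ) :
    ∑ μ ∈ wds j, sw s μ * star (sw s μ) = 1 := by
  induction j with
  | zero =>
    have : wds 0 = {[]} := by ext; simp [mem_wds]
    simp [this]
  | succ j ih =>
    have : wds (j + 1) = (Finset.univ ×ˢ wds j).image fun q : Fin 2 × List (Fin 2) => q.1 :: q.2 := by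
      ext μ
      rcases μ with _ | ⟨i, μ⟩ <;> simp [mem_wds]
    rw [this, Finset.sum_image (fun a _ b _ h => Prod.ext (List.cons.inj h).1 (List.cons.inj h).2),
      Finset.sum_product, ← h1]
    refine Finset.sum_congr rfl fun i _ => ?_
    simp only [sw_cons, star_mul]
    calc _ = s i * (∑ μ ∈ wds j, sw s μ * star (sw s μ)) * star (s i) := by
          rw [Finset.mul_sum, Finset.sum_mul]; simp only [mul_assoc]
      _ = _ := by rw [ih, mul_one]

noncomputable def win (L : ℕ) : Finset (List (Fin 2)) := (Finset.Ico L (2 * L)).biUnion wds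

lemma mem_win {L : ℕ} {μ : List (Fin 2)} : μ ∈ win L ↔ L ≤ μ.length ∧ μ.length < 2 * L := by
  simp [win, mem_wds]

lemma sum_win {M : Type*} [AddCommMonoid M] (L : ℕ) (f : List (Fin 2) → M) :
    ∑ μ ∈ win L, f μ = ∑ j ∈ Finset.Ico L (2 * L), ∑ μ ∈ wds j, f μ :=
  Finset.sum_biUnion fun _ _ _ _ h => Finset.disjoint_left.2 fun _ h1 h2 =>
    h ((mem_wds.1 h1).symm.trans (mem_wds.1 h2))

lemma monomial (hs : ∀ i k, star (s i) * s k = if i = k then 1 else 0) {w : O}
    (hw : w ∈ Submonoid.closure (Set.range s ∪ star (Set.range s))) :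
    ∃ (M : ℕ) (k : ℤ), ∀ ν : List (Fin 2), M ≤ ν.length → w * sw s ν = 0 ∨
      ∃ ν' : List (Fin 2), (ν'.length : ℤ) = ν.length + k ∧ w * sw s ν = sw s ν' := by
  induction hw using Submonoid.closure_induction_left with
  | one => exact ⟨0, 0, fun ν _ => Or.inr ⟨ν, by simp, by simp⟩⟩
  | mul_left a ha w _ ih =>
    obtain ⟨M, k, ih⟩ := ih
    rcases ha with ⟨i, rfl⟩ | ⟨i, hi⟩
    · refine ⟨M, k + 1, fun ν hν => ?_⟩
      rcases ih ν hν with h | ⟨ν', h1, h2⟩
      · exact Or.inl (by rw [mul_assoc, h, mul_zero])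
      · exact Or.inr ⟨i :: ν', by simp [h1]; ring, by rw [mul_assoc, h2, sw_cons]⟩
    · obtain rfl : a = star (s i) := by rw [hi, star_star]
      refine ⟨M + k.natAbs + 1, k - 1, fun ν hν => ?_⟩
      rcases ih ν (by omega) with h | ⟨ν', h1, h2⟩
      · exact Or.inl (by rw [mul_assoc, h, mul_zero])
      · rcases ν' with _ | ⟨l, ν'⟩
        · simp at h1; omega
        · rw [mul_assoc, h2, sw_cons, ← mul_assoc, hs]
          split_ifs
          · exact Or.inr ⟨ν', by simp at h1; omega, one_mul _⟩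
          · exact Or.inl (zero_mul _)

variable {H : Type} [NormedAddCommGroup H] [InnerProductSpace ℂ H] [CompleteSpace H]
  (ρ : O →⋆ₐ[ℂ] (H →L[ℂ] H)) (v₀ : H)

noncomputable def Psi (L : ℕ) : O →ₗ[ℂ] O where
  toFun d := ∑ μ ∈ win L, ∑ ν ∈ win L,
    ⟪ρ (sw s μ) v₀, ρ d (ρ (sw s ν) v₀)⟫_ℂ • (L : ℂ)⁻¹ • (sw s μ * star (sw s ν))
  map_add' a b := by simp [add_smul, Finset.sum_add_distrib]
  map_smul' c a := by simp [Finset.smul_sum, smul_smul, mul_assoc]

lemma Psi_tendsto (hs : ∀ i k, star (s i) * s k = if i = k then 1 else 0)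
    (h1 : ∑ i, s i * star (s i) = 1) (hV : Orthonormal ℂ fun μ => ρ (sw s μ) v₀) {d : O}
    (hd : d ∈ StarAlgebra.adjoin ℂ (Set.range s)) :
    Tendsto (fun L => Psi s ρ v₀ L d) atTop (𝓝 d) := by
  have hd' : d ∈ Submodule.span ℂ (Submonoid.closure (Set.range s ∪ star (Set.range s)) : Set O) := by
    rw [← StarAlgebra.adjoin_eq_span]; exact hd
  clear hd
  induction hd' using Submodule.span_induction with
  | zero => simp
  | add a b _ _ ha hb => simpa using ha.add hb
  | smul c a _ ha => simpa using ha.const_smul c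
  | mem w hw =>
    obtain ⟨M, k, h⟩ := monomial s hs hw
    have key : ∀ L, M ≤ L → Psi s ρ v₀ L w =
        ((((Finset.Ico L (2 * L)).filter fun j : ℕ => (L : ℤ) ≤ j + k ∧ j + k < 2 * L).card : ℂ) *
          (L : ℂ)⁻¹) • w := by
      intro L hL
      have e1 : ∀ ν ∈ win L, ∑ μ ∈ win L, ⟪ρ (sw s μ) v₀, ρ w (ρ (sw s ν) v₀)⟫_ℂ •
          (L : ℂ)⁻¹ • (sw s μ * star (sw s ν)) =
          if (L : ℤ) ≤ ν.length + k ∧ ν.length + k < 2 * L then
            (L : ℂ)⁻¹ • (w * (sw s ν * star (sw s ν))) else 0 := by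
        intro ν hν
        rw [NAI.rep_mul, ← mul_assoc]
        rcases h ν (hL.trans (mem_win.1 hν).1) with h | ⟨ν', h2, h⟩
        · simp [h]
        · simp only [h, orthonormal_iff_ite.1 hV, ite_smul, one_smul, zero_smul, Finset.sum_ite_eq',
            mem_win, ← h2]
          congr 1
          norm_cast
      change ∑ μ ∈ win L, ∑ ν ∈ win L, _ = _
      rw [Finset.sum_comm, Finset.sum_congr rfl e1, sum_win, Finset.card_filter, mul_smul,
        Nat.cast_sum, Finset.sum_smul]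
      refine Finset.sum_congr rfl fun j _ => ?_
      rw [Finset.sum_congr rfl fun ν hν => by rw [mem_wds.1 hν]]
      split_ifs
      · rw [← Finset.smul_sum, ← Finset.mul_sum, sum_wds s h1]; simp
      · simp
    have hc : Tendsto (fun L : ℕ => ((((Finset.Ico L (2 * L)).filter
        fun j : ℕ => (L : ℤ) ≤ j + k ∧ j + k < 2 * L).card : ℝ) * (L : ℝ)⁻¹)) atTop (𝓝 1) := by
      have h0 : Tendsto (fun L : ℕ => 1 - 2 * k.natAbs * (L : ℝ)⁻¹) atTop (𝓝 1) := by
        simpa using (tendsto_inv_atTop_nhds_zero_nat.const_mul (2 * k.natAbs : ℝ)).const_sub 1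
      refine tendsto_of_tendsto_of_tendsto_of_le_of_le' h0 tendsto_const_nhds ?_ ?_
      · filter_upwards [eventually_gt_atTop 0] with L hL
        have h2 := Finset.card_le_card (show Finset.Ico (L + k.natAbs) (2 * L - k.natAbs) ⊆
          (Finset.Ico L (2 * L)).filter fun j : ℕ => (L : ℤ) ≤ j + k ∧ j + k < 2 * L from
          fun j hj => by simp only [Finset.mem_filter, Finset.mem_Ico] at hj ⊢; omega)
        rw [Nat.card_Ico] at h2
        generalize ((Finset.Ico L (2 * L)).filter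
          fun j : ℕ => (L : ℤ) ≤ j + k ∧ j + k < 2 * L).card = N at h2 ⊢
        have hL' : (0 : ℝ) < L := by exact_mod_cast hL
        rw [← div_eq_mul_inv, ← div_eq_mul_inv, le_div_iff₀ hL', sub_mul, div_mul_cancel₀ _ hL'.ne',
          one_mul, sub_le_iff_le_add]
        norm_cast
        omega
      · filter_upwards [eventually_gt_atTop 0] with L hL
        have h2 := Finset.card_filter_le (Finset.Ico L (2 * L))
          fun j : ℕ => (L : ℤ) ≤ j + k ∧ j + k < 2 * L
        rw [Nat.card_Ico] at h2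
        generalize ((Finset.Ico L (2 * L)).filter
          fun j : ℕ => (L : ℤ) ≤ j + k ∧ j + k < 2 * L).card = N at h2 ⊢
        have hL' : (0 : ℝ) < L := by exact_mod_cast hL
        rw [← div_eq_mul_inv, div_le_one hL']
        norm_cast
        omega
    have h3 := ((Complex.continuous_ofReal.tendsto 1).comp hc).smul_const w
    rw [Complex.ofReal_one, one_smul] at h3
    refine h3.congr' ?_
    filter_upwards [eventually_ge_atTop M] with L hL
    rw [key L hL]; simp

theorem cpap (hs : ∀ i k, star (s i) * s k = if i = k then 1 else 0)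
    (h1 : ∑ i, s i * star (s i) = 1)
    (hgen : (StarAlgebra.adjoin ℂ (Set.range s)).topologicalClosure = ⊤)
    (hV : Orthonormal ℂ fun μ => ρ (sw s μ) v₀) {S : Type} [Finite S] (d : S → O) (ε : ℝ)
    (hε : 0 < ε) : ∃ (ι : Type) (_ : Fintype ι) (J : ι → O) (V : ι → H) (A : S → H →L[ℂ] H),
      Orthonormal ℂ V ∧ ∑ i, star (J i) * J i = 1 ∧ ∀ r, ‖A r‖ ≤ ‖d r‖ + ε ∧
        ‖∑ i, ∑ j, ⟪V i, A r (V j)⟫_ℂ • (star (J i) * J j) - d r‖ ≤ ε := by
  have h2 : ∀ r, ∃ d' ∈ StarAlgebra.adjoin ℂ (Set.range s), ‖d' - d r‖ < ε / 2 := fun r => by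
    have : d r ∈ closure (StarAlgebra.adjoin ℂ (Set.range s) : Set O) :=
      show d r ∈ (StarAlgebra.adjoin ℂ (Set.range s)).topologicalClosure from hgen ▸ trivial
    obtain ⟨b, hb, hb'⟩ := Metric.mem_closure_iff.1 this (ε / 2) (by positivity)
    exact ⟨b, hb, by rwa [dist_comm, dist_eq_norm] at hb'⟩
  choose d' hd' hd'' using h2
  obtain ⟨L, hL, hL0⟩ := ((eventually_all.2 fun r => Metric.tendsto_nhds.1
    (Psi_tendsto s ρ v₀ hs h1 hV (hd' r)) (ε / 2) (by positivity)).and (eventually_gt_atTop 0)).exists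
  have hL' : (0 : ℝ) < L := by exact_mod_cast hL0
  have hJ : ∀ μ ν, star (((√(L : ℝ))⁻¹ : ℂ) • star (sw s μ)) * (((√(L : ℝ))⁻¹ : ℂ) • star (sw s ν)) =
      (L : ℂ)⁻¹ • (sw s μ * star (sw s ν)) := fun μ ν => by
    rw [star_smul, star_star, smul_mul_smul_comm, star_inv₀, Complex.star_def, Complex.conj_ofReal,
      ← mul_inv, ← Complex.ofReal_mul, Real.mul_self_sqrt hL'.le, Complex.ofReal_natCast]
  refine ⟨win L, inferInstance, fun μ => ((√(L : ℝ))⁻¹ : ℂ) • star (sw s μ), fun μ => ρ (sw s μ) v₀,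
    fun r => ρ (d' r), hV.comp _ Subtype.val_injective, ?_, fun r => ⟨?_, ?_⟩⟩
  · simp only [hJ]
    rw [Finset.sum_coe_sort (win L) fun μ => (L : ℂ)⁻¹ • (sw s μ * star (sw s μ)), sum_win]
    simp only [← Finset.smul_sum, sum_wds s h1, Finset.sum_const, Nat.card_Ico]
    rw [show 2 * L - L = L by omega, ← Nat.cast_smul_eq_nsmul ℂ, smul_smul,
      inv_mul_cancel₀ (by exact_mod_cast hL0.ne'), one_smul]
  · have := norm_sub_norm_le (d' r) (d r)
    linarith [NonUnitalStarAlgHom.norm_apply_le ρ (d' r), hd'' r]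
  · have e : ∑ μ : win L, ∑ ν : win L, ⟪ρ (sw s μ) v₀, ρ (d' r) (ρ (sw s ν) v₀)⟫_ℂ •
        (L : ℂ)⁻¹ • (sw s μ * star (sw s ν)) = Psi s ρ v₀ L (d' r) := by
      change _ = ∑ μ ∈ win L, ∑ ν ∈ win L, _
      rw [← Finset.sum_coe_sort (win L)]
      exact Finset.sum_congr rfl fun μ _ => Finset.sum_coe_sort (win L) fun ν =>
        ⟪ρ (sw s μ) v₀, ρ (d' r) (ρ (sw s ν) v₀)⟫_ℂ • (L : ℂ)⁻¹ • (sw s μ * star (sw s ν))
    simp only [hJ]
    rw [e]
    have h3 := hL r
    rw [dist_eq_norm] at h3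
    have := norm_add_le (Psi s ρ v₀ L (d' r) - d' r) (d' r - d r)
    rw [sub_add_sub_cancel] at this
    linarith [hd'' r]

end

/-- a Cuntz family with a wandering vector -/
theorem exists_cuntz : ∃ (H : Type) (_ : NormedAddCommGroup H) (_ : InnerProductSpace ℂ H)
    (_ : CompleteSpace H) (S : Fin 2 → H →L[ℂ] H) (v₀ : H),
      (∀ i k, star (S i) * S k = if i = k then 1 else 0) ∧ ∑ i, S i * star (S i) = 1 ∧
      Orthonormal ℂ fun μ => sw S μ v₀ := by
  classical
  let Ω := ℤ × (ℕ → Fin 2)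
  let σ : Fin 2 → Ω → Ω := fun i q => (q.1 + 1, fun n => Nat.casesOn n i q.2)
  have hσ : ∀ i k a b, σ i a = σ k b ↔ i = k ∧ a = b := fun i k a b => by
    refine ⟨fun h => ⟨congrFun (congrArg Prod.snd h) 0, Prod.ext ?_ (funext fun n => ?_)⟩, ?_⟩
    · simpa [σ] using congrArg Prod.fst h
    · exact congrFun (congrArg Prod.snd h) (n + 1)
    · rintro ⟨rfl, rfl⟩; rfl
  let δ : Ω → lp (fun _ : Ω => ℂ) 2 := fun a => lp.single 2 a 1
  have hδ : ∀ a b, ⟪δ a, δ b⟫_ℂ = if a = b then 1 else 0 := fun a b => by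
    simp only [δ, lp.inner_single_left, lp.single_apply, Pi.single_apply]
    split_ifs <;> simp
  have ht : NAI.Total δ := fun z hz => lp.ext (funext fun a => by
    simpa [δ, lp.inner_single_left] using hz a)
  have h1 : ∀ i, ∃ W : lp (fun _ : Ω => ℂ) 2 →ₗᵢ[ℂ] lp (fun _ : Ω => ℂ) 2, ∀ a, W (δ a) = δ (σ i a) :=
    fun i => NAI.exists_isometry ht fun a b => by simp [hδ, hσ]
  choose W hW using h1
  let S := fun i => (W i).toContinuousLinearMap
  have hS : ∀ i a, S i (δ a) = δ (σ i a) := hW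
  have hs : ∀ i k, star (S i) * S k = if i = k then 1 else 0 := fun i k => ht.ext fun a => by
    rw [← sub_eq_zero]
    refine ht _ fun b => ?_
    rw [inner_sub_right, mul_apply_eq_comp, ContinuousLinearMap.star_eq_adjoint,
      ContinuousLinearMap.adjoint_inner_right, hS, hS, hδ]
    by_cases h : i = k <;> simp [hσ, h, hδ]
  refine ⟨_, inferInstance, inferInstance, inferInstance, S, δ (0, fun _ => 0), hs,
    ht.ext fun a => ?_, ?_⟩
  · have : a = σ (a.2 0) (a.1 - 1, fun n => a.2 (n + 1)) :=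
      Prod.ext (by simp [σ]) (funext fun n => by cases n <;> rfl)
    rw [this, ← hS, ← mul_apply_eq_comp, ← mul_apply_eq_comp, Finset.sum_mul, one_mul]
    simp [mul_assoc, hs]
  · let pt : List (Fin 2) → Ω := fun μ => μ.foldr σ (0, fun _ => 0)
    have e1 : ∀ μ, sw S μ (δ (0, fun _ => 0)) = δ (pt μ) := fun μ => by
      induction μ with
      | nil => rfl
      | cons i μ ih => rw [sw_cons, mul_apply_eq_comp, ih, hS]; rfl
    have e2 : ∀ μ, (pt μ).1 = μ.length := fun μ => by
      induction μ with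
      | nil => rfl
      | cons i μ ih => simp only [pt, List.foldr_cons, σ, List.length_cons] at ih ⊢; rw [ih]; simp
    have e3 : ∀ μ ν, pt μ = pt ν → μ = ν := fun μ => by
      induction μ with
      | nil => exact fun ν h => (List.length_eq_zero_iff.1 (by
          have := e2 ν; rw [← h, e2] at this; simpa using this.symm)).symm
      | cons i μ ih =>
        rintro (_ | ⟨k, ν⟩) h
        · have := e2 (i :: μ); rw [h, e2] at this; simp at this; omega
        · obtain ⟨rfl, h'⟩ := (hσ _ _ _ _).1 h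
          rw [ih ν h']
    rw [orthonormal_iff_ite]
    intro μ ν
    rw [e1, e1, hδ]
    exact if_congr ⟨e3 μ ν, fun h => h ▸ rfl⟩ rfl rfl

end Crest.Agent.KEP
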