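import Mathlib

/-! Spectral gap from Heisenberg angles. -/

set_option autoImplicit false
set_option linter.unusedSectionVars false
open scoped RealInnerProductSpace

namespace Crest.Agent.KEP

variable {p : ℕ} [Fact p.Prime] {G : Type} [Group G]

/-- one-parameter family -/
def OneP (x : ZMod p → G) : Prop := ∀ s t, x (s + t) = x s * x t

lemma OneP.zero {x : ZMod p → G} (h : OneP x) : x 0 = 1 := by
  have := h 0 0
  rw [add_zero] at this
  exact left_eq_mul.1 this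

lemma OneP.neg {x : ZMod p → G} (h : OneP x) (t : ZMod p) : x (-t) = (x t)⁻¹ :=
  eq_inv_of_mul_eq_one_left (by rw [← h, neg_add_cancel, h.zero])

/-- Heisenberg pair -/
def Heis (x y : ZMod p → G) : Prop := ∃ z : ZMod p → G, OneP z ∧
  (∀ s t, y s * x t = x t * y s * z (s * t)) ∧ (∀ s t, z s * x t = x t * z s) ∧
  ∀ s t, z s * y t = y t * z s

variable {E : Type} [SeminormedAddCommGroup E] [InnerProductSpace ℝ E] (ρ : G →* Module.End ℝ E)

/-- average over a one-parameter family -/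
noncomputable def av (x : ZMod p → G) : Module.End ℝ E := (p : ℝ)⁻¹ • ∑ t, ρ (x t)

lemma p_pos : (0 : ℝ) < p := by exact_mod_cast (Fact.out : p.Prime).pos

lemma mul_av {x : ZMod p → G} (h : OneP x) (s : ZMod p) : ρ (x s) * av ρ x = av ρ x := by
  simp only [av, mul_smul_comm, Finset.mul_sum, ← map_mul, ← h _]
  congr 1
  exact Equiv.sum_comp (Equiv.addLeft s) fun t => ρ (x t)

lemma av_mul {x : ZMod p → G} (h : OneP x) (s : ZMod p) : av ρ x * ρ (x s) = av ρ x := by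
  simp only [av, smul_mul_assoc, Finset.sum_mul, ← map_mul, ← h _]
  congr 1
  exact Equiv.sum_comp (Equiv.addRight s) fun t => ρ (x t)

lemma av_const (T : Module.End ℝ E) : (p : ℝ)⁻¹ • ∑ _t : ZMod p, T = T := by
  rw [Finset.sum_const, Finset.card_univ, ZMod.card, ← Nat.cast_smul_eq_nsmul ℝ, smul_smul,
    inv_mul_cancel₀ p_pos.ne', one_smul]

lemma mul_av_of {x : ZMod p → G} {T T' : Module.End ℝ E} (h : ∀ t, T * ρ (x t) = T') :
    T * av ρ x = T' := by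
  simp only [av, mul_smul_comm, Finset.mul_sum, h, av_const]

lemma comm_av {x : ZMod p → G} {T : Module.End ℝ E} (h : ∀ t, T * ρ (x t) = ρ (x t) * T) :
    T * av ρ x = av ρ x * T := by
  simp only [av, mul_smul_comm, smul_mul_assoc, Finset.mul_sum, Finset.sum_mul, h]

lemma av_av {x : ZMod p → G} (h : OneP x) : av ρ x * av ρ x = av ρ x := mul_av_of ρ (av_mul ρ h)

variable (hρ : ∀ g v w, ⟪ρ g v, ρ g w⟫ = ⟪v, w⟫)
include hρ

lemma norm_rho (g : G) (v : E) : ‖ρ g v‖ = ‖v‖ := by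
  rw [norm_eq_sqrt_real_inner, hρ, ← norm_eq_sqrt_real_inner]

lemma inner_rho (g : G) (v w : E) : ⟪ρ g v, w⟫ = ⟪v, ρ g⁻¹ w⟫ := by
  rw [← hρ g v, ← Module.End.mul_apply, ← map_mul, mul_inv_cancel, map_one, Module.End.one_apply]

lemma av_sa {x : ZMod p → G} (h : OneP x) (v w : E) : ⟪av ρ x v, w⟫ = ⟪v, av ρ x w⟫ := by
  simp only [av, LinearMap.smul_apply, LinearMap.sum_apply, inner_smul_left, inner_smul_right,
    sum_inner, inner_sum, inner_rho ρ hρ, ← h.neg, conj_trivial]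
  congr 1
  exact Equiv.sum_comp (Equiv.neg (ZMod p)) fun t => ⟪v, ρ (x t) w⟫

omit hρ in
/-- two projections at a small angle -/
lemma angle {P P' : Module.End ℝ E} (hP : ∀ v w, ⟪P v, w⟫ = ⟪v, P w⟫)
    (hP' : ∀ v w, ⟪P' v, w⟫ = ⟪v, P' w⟫) (h2 : P * P = P) (h2' : P' * P' = P') (w : E)
    (h : ‖P' (P w)‖ ≤ 1 / 6 * ‖P w‖) :
    -(1 / 6 * (‖w - P w‖ ^ 2 + ‖w - P' w‖ ^ 2)) ≤ 2 * ⟪w - P w, w - P' w⟫ := by
  have e : ∀ {Q : Module.End ℝ E}, (∀ v w, ⟪Q v, w⟫ = ⟪v, Q w⟫) → Q * Q = Q →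
      ⟪w, Q w⟫ = ‖Q w‖ ^ 2 := fun {Q} hQ hQ2 => by
    rw [← real_inner_self_eq_norm_sq, hQ, ← Module.End.mul_apply, hQ2]
  have e1 := e hP h2
  have e2 := e hP' h2'
  set A := ‖P w‖
  set B := ‖P' w‖
  have hA : 0 ≤ A := norm_nonneg _
  have hB : 0 ≤ B := norm_nonneg _
  have h3 : ⟪P w, P' w⟫ ≤ 1 / 6 * A * B := by
    have : ⟪P w, P' w⟫ = ⟪P' (P w), P' w⟫ := by rw [hP', ← Module.End.mul_apply, h2']
    rw [this]
    exact (real_inner_le_norm _ _).trans (mul_le_mul_of_nonneg_right h hB)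
  have h4 : ‖P w + P' w‖ ^ 2 ≤ 7 / 6 * (A ^ 2 + B ^ 2) := by
    rw [norm_add_sq_real]; nlinarith [sq_nonneg (A - B)]
  have h5 : A ^ 2 + B ^ 2 ≤ ‖w‖ * ‖P w + P' w‖ := by
    rw [← e1, ← e2, ← inner_add_right]; exact real_inner_le_norm _ _
  have h6 : A ^ 2 + B ^ 2 ≤ 7 / 6 * ‖w‖ ^ 2 := by
    by_contra hc
    push Not at hc
    have h7 : (A ^ 2 + B ^ 2) ^ 2 ≤ ‖w‖ ^ 2 * (7 / 6 * (A ^ 2 + B ^ 2)) := by
      calc _ ≤ (‖w‖ * ‖P w + P' w‖) ^ 2 := pow_le_pow_left₀ (by positivity) h5 2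
        _ = ‖w‖ ^ 2 * ‖P w + P' w‖ ^ 2 := by ring
        _ ≤ _ := by gcongr
    nlinarith [sq_nonneg ‖w‖]
  set u := w - P w
  set u' := w - P' w
  have q1 : ⟪w, u⟫ = ‖u‖ ^ 2 ∧ ‖u‖ ^ 2 = ‖w‖ ^ 2 - A ^ 2 := by
    rw [norm_sub_sq_real, inner_sub_right, e1, real_inner_self_eq_norm_sq]; constructor <;> ring
  have q2 : ⟪w, u'⟫ = ‖u'‖ ^ 2 ∧ ‖u'‖ ^ 2 = ‖w‖ ^ 2 - B ^ 2 := by
    rw [norm_sub_sq_real, inner_sub_right, e2, real_inner_self_eq_norm_sq]; constructor <;> ring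
  have h8 : ‖u‖ ^ 2 + ‖u'‖ ^ 2 ≤ ‖w‖ * ‖u + u'‖ := by
    rw [← q1.1, ← q2.1, ← inner_add_right]; exact real_inner_le_norm _ _
  have h9 : 5 / 6 * ‖w‖ ^ 2 ≤ ‖u‖ ^ 2 + ‖u'‖ ^ 2 := by rw [q1.2, q2.2]; linarith
  have h10 : 5 / 6 * ‖w‖ ≤ ‖u + u'‖ := by
    rcases (norm_nonneg w).eq_or_lt with h0 | h0
    · rw [← h0]; simp
    · exact le_of_mul_le_mul_left (by nlinarith) h0
  have h11 := norm_add_sq_real u u'
  nlinarith [norm_nonneg (u + u'), norm_nonneg w]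

lemma pair (hp : 36 ≤ p) {x y : ZMod p → G} (hx : OneP x) (hy : OneP y) (h : Heis x y) (v : E) :
    -(1 / 6 * (‖v - av ρ x v‖ ^ 2 + ‖v - av ρ y v‖ ^ 2)) ≤ 2 * ⟪v - av ρ x v, v - av ρ y v⟫ := by
  obtain ⟨z, hz, h1, h2, h3⟩ := h
  set P := av ρ x with hP
  set P' := av ρ y with hP'
  set Z := av ρ z with hZ
  have sP := av_sa ρ hρ hx
  have sP' := av_sa ρ hρ hy
  have sZ := av_sa ρ hρ hz
  have iP := av_av ρ hx
  have iP' := av_av ρ hy
  have iZ := av_av ρ hz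
  rw [← hP] at sP iP
  rw [← hP'] at sP' iP'
  rw [← hZ] at sZ iZ
  have cx : ∀ t, ρ (x t) * Z = Z * ρ (x t) := fun t =>
    comm_av ρ fun s => by rw [← map_mul, ← map_mul, h2]
  have cy : ∀ t, ρ (y t) * Z = Z * ρ (y t) := fun t =>
    comm_av ρ fun s => by rw [← map_mul, ← map_mul, h3]
  have cP : Z * P = P * Z := comm_av ρ fun t => (cx t).symm
  have cP' : Z * P' = P' * Z := comm_av ρ fun t => (cy t).symm
  have c1 : P' * P * Z = P * P' * Z := by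
    have : ∀ s t, ρ (y s) * ρ (x t) * Z = ρ (x t) * ρ (y s) * Z := fun s t => by
      rw [← map_mul, h1, map_mul, mul_assoc, mul_av ρ hz, map_mul]
    simp only [hP, hP', av, smul_mul_assoc, mul_smul_comm, Finset.sum_mul, Finset.mul_sum]
    simp only [this, Finset.smul_sum]
    rw [Finset.sum_comm]
  have c2 : ∀ s, s ≠ 0 → P * ρ (y s) * P * (1 - Z) = 0 := fun s hs => by
    have : P * ρ (y s) * P * Z = P * ρ (y s) * P := mul_av_of ρ fun t => by
      have e1 : ρ (y s) * ρ (x (s⁻¹ * t)) = ρ (x (s⁻¹ * t)) * ρ (y s) * ρ (z t) := by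
        rw [← map_mul, h1, mul_inv_cancel_left₀ hs, map_mul, map_mul]
      have e2 : P * ρ (z t) = ρ (z t) * P :=
        (comm_av ρ fun s => by rw [← map_mul, ← map_mul, h2]).symm
      calc P * ρ (y s) * P * ρ (z t) = P * ρ (x (s⁻¹ * t)) * ρ (y s) * ρ (z t) * P := by
            rw [av_mul ρ hx, mul_assoc _ P, e2, ← mul_assoc]
        _ = P * ρ (y s) * (ρ (x (s⁻¹ * t)) * P) := by
            rw [mul_assoc P, mul_assoc P, ← e1]; simp only [mul_assoc]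
        _ = _ := by rw [mul_av ρ hx]
    rw [mul_sub, mul_one, this, sub_self]
  have c3 : P * P' * P * (1 - Z) = (p : ℝ)⁻¹ • (P * (1 - Z)) := by
    conv_lhs => rw [hP', av]
    rw [mul_smul_comm, smul_mul_assoc, smul_mul_assoc, Finset.mul_sum, Finset.sum_mul,
      Finset.sum_mul, Finset.sum_eq_single 0 (fun s _ hs => c2 s hs) (by simp), hy.zero, map_one,
      mul_one, iP]
  set w := v - Z v with hw
  have hZw : Z w = 0 := by rw [hw, map_sub, ← Module.End.mul_apply, iZ, sub_self]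
  have key := angle sP sP' iP iP' w (by
    have e1 : ‖P' (P w)‖ ^ 2 = (p : ℝ)⁻¹ * ‖P w‖ ^ 2 := by
      have e2 : P (P' (P w)) = (p : ℝ)⁻¹ • P w := by
        have := LinearMap.congr_fun c3 v
        simpa [hw] using this
      rw [← real_inner_self_eq_norm_sq, ← real_inner_self_eq_norm_sq, sP', ← Module.End.mul_apply P',
        iP', sP, e2, inner_smul_right, sP, ← Module.End.mul_apply P P, iP]
    have e3 : (p : ℝ)⁻¹ ≤ 1 / 36 := by
      rw [one_div]; exact inv_anti₀ (by norm_num) (by exact_mod_cast hp)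
    refine le_of_sq_le_sq ?_ (by positivity) |>.trans le_rfl
    rw [e1]; nlinarith [sq_nonneg ‖P w‖])
  -- orthogonal splitting along `Z`
  have orth : ∀ {Q Q' : Module.End ℝ E}, Z * Q = Q * Z → Z * Q' = Q' * Z →
      ⟪v - Q v, v - Q' v⟫ = ⟪Z v - Q (Z v), Z v - Q' (Z v)⟫ + ⟪w - Q w, w - Q' w⟫ := by
    intro Q Q' hQ hQ'
    have a : ∀ {Q : Module.End ℝ E}, Z * Q = Q * Z → Z (w - Q w) = 0 ∧
        Z v - Q (Z v) = Z (v - Q v) ∧ v - Q v = (Z v - Q (Z v)) + (w - Q w) := fun {Q} hQ => by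
      refine ⟨?_, ?_, ?_⟩
      · rw [map_sub, ← Module.End.mul_apply, hQ, Module.End.mul_apply, hZw, map_zero, sub_zero]
      · rw [map_sub, ← Module.End.mul_apply Z, hQ, Module.End.mul_apply]
      · rw [hw, map_sub]; abel
    obtain ⟨a1, a2, a3⟩ := a hQ
    obtain ⟨b1, b2, b3⟩ := a hQ'
    have o1 : ⟪Z v - Q (Z v), w - Q' w⟫ = 0 := by rw [a2, sZ, b1, inner_zero_right]
    have o2 : ⟪w - Q w, Z v - Q' (Z v)⟫ = 0 := by rw [b2, ← sZ, a1, inner_zero_left]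
    conv_lhs => rw [a3, b3, inner_add_left, inner_add_right, inner_add_right, o1, o2]
    ring
  have n1 := orth cP cP
  have n2 := orth cP' cP'
  simp only [real_inner_self_eq_norm_sq] at n1 n2
  have n3 : 0 ≤ ⟪Z v - P (Z v), Z v - P' (Z v)⟫ := by
    have e1 : P' (P (Z v)) = P (P' (Z v)) := LinearMap.congr_fun c1 v
    set a := Z v
    have e2 : ⟪a - P a, a - P' a⟫ = ⟪(a - P a) - P' (a - P a), (a - P a) - P' (a - P a)⟫ := by
      have f1 : ∀ b, ⟪P a, b⟫ = ⟪P a, P b⟫ := fun b => by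
        rw [← sP, ← Module.End.mul_apply P P, iP]
      have f2 : ∀ c b, ⟪P' c, b⟫ = ⟪P' c, P' b⟫ := fun c b => by
        rw [← sP', ← Module.End.mul_apply P' P', iP']
      have g1 : ⟪P a, P' a⟫ = ⟪P' (P a), P' (P a)⟫ := by
        rw [← f2, sP', f1, ← e1]
      have g2 : ⟪a, P a⟫ = ⟪P a, P a⟫ := by rw [← f1, sP]
      have g3 : ⟪a, P' a⟫ = ⟪P' a, P' a⟫ := by rw [← f2, sP']
      have g4 : ⟪a, P' (P a)⟫ = ⟪P a, P' a⟫ := by rw [← sP', real_inner_comm]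
      have g5 : ⟪P a, P' (P a)⟫ = ⟪P a, P' a⟫ := by rw [g1, ← f2, sP']
      have g6 : ⟪P' a, P' (P a)⟫ = ⟪P a, P' a⟫ := by rw [← f2, real_inner_comm]
      simp only [map_sub, inner_sub_left, inner_sub_right, real_inner_comm a (P a),
        real_inner_comm a (P' a), real_inner_comm a (P' (P a)), real_inner_comm (P a) (P' a),
        real_inner_comm (P a) (P' (P a)), real_inner_comm (P' a) (P' (P a))]
      rw [g4, g5, g6, ← g1, ← g2, ← g3]; ring
    rw [e2]; exact real_inner_self_nonneg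
  rw [orth cP cP', n1, n2]
  nlinarith [sq_nonneg ‖Z v - P (Z v)‖, sq_nonneg ‖Z v - P' (Z v)‖]

/-- the generating data: four one-parameter families, pairwise Heisenberg -/
structure TData (x : Fin 4 → ZMod p → G) : Prop where
  hp : 36 ≤ p
  one : ∀ i, OneP (x i)
  heis : ∀ i j, i ≠ j → Heis (x i) (x j) ∨ Heis (x j) (x i)

variable {x : Fin 4 → ZMod p → G} (hx : TData x)
include hx

lemma lap_ge (v : E) :
    1 / 2 * ∑ i, ‖v - av ρ (x i) v‖ ^ 2 ≤ ‖∑ i, (v - av ρ (x i) v)‖ ^ 2 := by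
  have h : ∀ i j, i ≠ j → -(1 / 6 * (‖v - av ρ (x i) v‖ ^ 2 + ‖v - av ρ (x j) v‖ ^ 2)) ≤
      2 * ⟪v - av ρ (x i) v, v - av ρ (x j) v⟫ := fun i j hij => by
    rcases hx.heis i j hij with h | h
    · exact pair ρ hρ hx.hp (hx.one i) (hx.one j) h v
    · rw [add_comm, real_inner_comm]; exact pair ρ hρ hx.hp (hx.one j) (hx.one i) h v
  have h01 := h 0 1 (by decide)
  have h02 := h 0 2 (by decide)
  have h03 := h 0 3 (by decide)
  have h12 := h 1 2 (by decide)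
  have h13 := h 1 3 (by decide)
  have h23 := h 2 3 (by decide)
  simp only [Fin.sum_univ_four, norm_add_sq_real, inner_add_left]
  linarith

theorem gap (V : Submodule ℝ E) (hV : ∀ i t, ∀ v ∈ V, ρ (x i t) v ∈ V) (v₀ : E) (hv₀ : v₀ ∈ V)
    (h1 : ‖v₀‖ = 1) (h2 : ∀ i t, ‖ρ (x i t) v₀ - v₀‖ ≤ 1 / 4) (η : ℝ) (hη : 0 < η) :
    ∃ v ∈ V, ‖v‖ = 1 ∧ ∀ i t, ‖ρ (x i t) v - v‖ ≤ η := by
  set Δ : Module.End ℝ E := ∑ i, (1 - av ρ (x i)) with hΔ
  have Δa : ∀ v, Δ v = ∑ i, (v - av ρ (x i) v) := fun v => by simp [hΔ, LinearMap.sum_apply]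
  set D : E → ℝ := fun v => ∑ i, ‖v - av ρ (x i) v‖ ^ 2 with hD
  have hQ : ∀ i v, ⟪v - av ρ (x i) v, v⟫ = ‖v - av ρ (x i) v‖ ^ 2 := fun i v => by
    have : ⟪v - av ρ (x i) v, av ρ (x i) v⟫ = 0 := by
      rw [← av_sa ρ hρ (hx.one i), map_sub, ← Module.End.mul_apply, av_av ρ (hx.one i), sub_self,
        inner_zero_left]
    rw [← real_inner_self_eq_norm_sq, inner_sub_right _ v, this, sub_zero]
  have DΔ : ∀ v, ⟪Δ v, v⟫ = D v := fun v => by rw [Δa, sum_inner]; simp only [hQ, hD]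
  have sΔ : ∀ v w, ⟪Δ v, w⟫ = ⟪v, Δ w⟫ := fun v w => by
    simp only [Δa, sum_inner, inner_sum, inner_sub_left, inner_sub_right, av_sa ρ hρ (hx.one _)]
  have D0 : ∀ v, 0 ≤ D v := fun v => Finset.sum_nonneg fun i _ => sq_nonneg _
  have D4 : ∀ v, D v ≤ 4 * ‖v‖ ^ 2 := fun v => by
    have : ∀ i, ‖v - av ρ (x i) v‖ ^ 2 ≤ ‖v‖ ^ 2 := fun i => by
      have h3 := (hQ i v).symm.trans_le (real_inner_le_norm _ _)
      nlinarith [sq_nonneg (‖v - av ρ (x i) v‖ - ‖v‖)]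
    calc D v ≤ ∑ _i : Fin 4, ‖v‖ ^ 2 := Finset.sum_le_sum fun i _ => this i
      _ = _ := by simp
  have VΔ : ∀ v ∈ V, Δ v ∈ V := fun v hv => by
    rw [Δa]
    refine V.sum_mem fun i _ => V.sub_mem hv ?_
    simp only [av, LinearMap.smul_apply, LinearMap.sum_apply]
    exact V.smul_mem _ (V.sum_mem fun t _ => hV i t v hv)
  set S : Set ℝ := {r | ∃ v ∈ V, ‖v‖ = 1 ∧ D v = r}
  have Sne : S.Nonempty := ⟨_, v₀, hv₀, h1, rfl⟩
  have Sbd : BddBelow S := ⟨0, by rintro _ ⟨v, -, -, rfl⟩; exact D0 v⟩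
  set l := sInf S
  have l0 : 0 ≤ l := le_csInf Sne (by rintro _ ⟨v, -, -, rfl⟩; exact D0 v)
  have l1 : ∀ v ∈ V, l * ‖v‖ ^ 2 ≤ D v := fun v hv => by
    rcases (norm_nonneg v).eq_or_lt with h0 | h0
    · rw [← h0]; simpa using D0 v
    · have := csInf_le Sbd ⟨‖v‖⁻¹ • v, V.smul_mem _ hv, by
        rw [norm_smul, norm_inv, norm_norm, inv_mul_cancel₀ h0.ne'], rfl⟩
      rw [← DΔ, map_smul, inner_smul_left, inner_smul_right, DΔ] at this
      simp only [conj_trivial] at this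
      calc l * ‖v‖ ^ 2 ≤ ‖v‖⁻¹ * (‖v‖⁻¹ * D v) * ‖v‖ ^ 2 := by gcongr
        _ = D v := by field_simp
  have l2 : l ≤ 1 / 4 := by
    have h3 : ∀ i, ‖v₀ - av ρ (x i) v₀‖ ≤ 1 / 4 := fun i => by
      have e : v₀ - av ρ (x i) v₀ = (p : ℝ)⁻¹ • ∑ t, (v₀ - ρ (x i t) v₀) := by
        simp [av, LinearMap.sum_apply, Finset.sum_sub_distrib, smul_sub,
          ← Nat.cast_smul_eq_nsmul ℝ, smul_smul, (p_pos (p := p)).ne']
      rw [e, norm_smul, norm_inv, Real.norm_natCast, inv_mul_le_iff₀ p_pos]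
      refine (norm_sum_le _ _).trans ?_
      calc _ ≤ ∑ _t : ZMod p, (1 / 4 : ℝ) :=
            Finset.sum_le_sum fun t _ => by rw [norm_sub_rev]; exact h2 i t
        _ = _ := by simp
    have : D v₀ ≤ ∑ _i : Fin 4, (1 / 4 : ℝ) ^ 2 :=
      Finset.sum_le_sum fun i _ => pow_le_pow_left₀ (norm_nonneg _) (h3 i) 2
    have h4 := l1 v₀ hv₀
    rw [h1] at h4
    simp at this
    linarith
  have l3 : ∀ ε : ℝ, 0 < ε → l ≤ 20 * ε := fun ε hε => by
    obtain ⟨_, ⟨v, hv, hv1, rfl⟩, h3⟩ := exists_lt_of_csInf_lt Sne (lt_add_of_pos_right l hε)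
    set y := Δ v - l • v with hy
    have hyV : y ∈ V := V.sub_mem (VΔ v hv) (V.smul_mem _ hv)
    have h4 := l1 (v - (1 / 4 : ℝ) • y) (V.sub_mem hv (V.smul_mem _ hyV))
    have e1 : ⟪y, v⟫ = D v - l := by
      rw [hy, inner_sub_left, DΔ, inner_smul_left, real_inner_self_eq_norm_sq, hv1]; simp
    have e2 : ⟪Δ v, y⟫ = ‖y‖ ^ 2 + l * (D v - l) := by
      rw [show Δ v = y + l • v by rw [hy]; abel, inner_add_left, real_inner_self_eq_norm_sq,
        inner_smul_left, real_inner_comm, e1]; simp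
    have e3 : ‖Δ v‖ ^ 2 = ‖y‖ ^ 2 + 2 * l * (D v - l) + l ^ 2 := by
      rw [show Δ v = y + l • v by rw [hy]; abel, norm_add_sq_real, inner_smul_right, e1, norm_smul,
        hv1, Real.norm_eq_abs, mul_one, sq_abs]; ring
    rw [← DΔ, norm_sub_sq_real, map_sub, map_smul, inner_sub_left, inner_sub_right, inner_sub_right,
      inner_smul_right, inner_smul_right, inner_smul_left, inner_smul_right, inner_smul_left, DΔ,
      DΔ, sΔ y v, real_inner_comm (Δ v) y, real_inner_comm y v, e1, e2, hv1, norm_smul] at h4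
    have h5 := D4 y
    have h6 := lap_ge ρ hρ hx v
    rw [← Δa, e3] at h6
    have h7 := l1 v hv
    rw [hv1] at h7
    simp only [conj_trivial, Real.norm_eq_abs] at h4
    rw [abs_of_pos (by norm_num : (0 : ℝ) < 1 / 4)] at h4
    have h8 : ‖y‖ ^ 2 ≤ 4 * ε := by nlinarith [sq_nonneg ‖y‖]
    change 1 / 2 * D v ≤ _ at h6
    nlinarith
  have l4 : l ≤ 0 := le_of_forall_pos_le_add fun ε hε => by linarith [l3 (ε / 20) (by positivity)]
  obtain ⟨_, ⟨v, hv, hv1, rfl⟩, h3⟩ := exists_lt_of_csInf_lt Sne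
    (l4.trans_lt (by positivity : 0 < (η / 2) ^ 2))
  refine ⟨v, hv, hv1, fun i t => ?_⟩
  have h4 : ‖v - av ρ (x i) v‖ ≤ η / 2 := by
    refine le_of_sq_le_sq (le_trans ?_ h3.le) (by positivity)
    exact Finset.single_le_sum (f := fun i => ‖v - av ρ (x i) v‖ ^ 2) (fun i _ => sq_nonneg _)
      (Finset.mem_univ i)
  have e : ρ (x i t) v - v = ρ (x i t) (v - av ρ (x i) v) - (v - av ρ (x i) v) := by
    rw [map_sub, ← Module.End.mul_apply, mul_av ρ (hx.one i)]; abel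
  rw [e]
  refine (norm_sub_le _ _).trans ?_
  rw [norm_rho ρ hρ]; linarith

omit hx in
lemma word_bound {g : G} (hg : g ∈ Subgroup.closure (Set.range fun s : Fin 4 × ZMod p => x s.1 s.2)) :
    ∃ C : ℝ, 0 ≤ C ∧ ∀ (v : E) (η : ℝ), 0 ≤ η → (∀ i t, ‖ρ (x i t) v - v‖ ≤ η) →
      ‖ρ g v - v‖ ≤ C * η := by
  induction hg using Subgroup.closure_induction with
  | mem g hg => obtain ⟨s, rfl⟩ := hg; exact ⟨1, zero_le_one, fun v η _ h => by simpa using h _ _⟩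
  | one => exact ⟨0, le_rfl, fun v η _ _ => by simp⟩
  | mul g h _ _ hg hh =>
    obtain ⟨C, hC, hg⟩ := hg; obtain ⟨C', hC', hh⟩ := hh
    refine ⟨C + C', by positivity, fun v η hη hv => ?_⟩
    have e : ρ (g * h) v - v = ρ g (ρ h v - v) + (ρ g v - v) := by simp
    rw [e]
    refine (norm_add_le _ _).trans ?_
    rw [norm_rho ρ hρ]
    linarith [hg v η hη hv, hh v η hη hv]
  | inv g _ hg =>
    obtain ⟨C, hC, hg⟩ := hg
    refine ⟨C, hC, fun v η hη hv => ?_⟩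
    rw [← norm_rho ρ hρ g, map_sub, ← Module.End.mul_apply, ← map_mul, mul_inv_cancel, map_one,
      norm_sub_rev]
    exact hg v η hη hv

/-- if some family in the generated subgroup averages to zero, every vector is moved -/
theorem moved (V : Submodule ℝ E) (hV : ∀ i t, ∀ v ∈ V, ρ (x i t) v ∈ V) (b : ZMod p → G)
    (hb : ∀ t, b t ∈ Subgroup.closure (Set.range fun s : Fin 4 × ZMod p => x s.1 s.2))
    (h0 : ∀ v ∈ V, ∑ t, ρ (b t) v = 0) (v : E) (hv : v ∈ V) :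
    ‖v‖ ^ 2 / 16 ≤ ∑ s : Fin 4 × ZMod p, ‖ρ (x s.1 s.2) v - v‖ ^ 2 := by
  by_contra hc
  push Not at hc
  have hn : 0 < ‖v‖ := by
    rcases (norm_nonneg v).eq_or_lt with h0 | h0
    · rw [← h0] at hc
      have : 0 ≤ ∑ s : Fin 4 × ZMod p, ‖ρ (x s.1 s.2) v - v‖ ^ 2 :=
        Finset.sum_nonneg fun _ _ => sq_nonneg _
      linarith
    · exact h0
  choose C hC hC' using fun t => word_bound ρ hρ (hb t)
  have hS : 0 ≤ ∑ t, C t := Finset.sum_nonneg fun t _ => hC t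
  obtain ⟨w, hw, hw1, hw2⟩ := gap ρ hρ hx V hV (‖v‖⁻¹ • v) (V.smul_mem _ hv)
    (by rw [norm_smul, norm_inv, norm_norm, inv_mul_cancel₀ hn.ne']) (fun i t => by
      rw [map_smul, ← smul_sub, norm_smul, norm_inv, norm_norm, inv_mul_le_iff₀ hn]
      refine le_of_sq_le_sq (le_trans (Finset.single_le_sum
        (f := fun s : Fin 4 × ZMod p => ‖ρ (x s.1 s.2) v - v‖ ^ 2) (fun _ _ => sq_nonneg _)
        (Finset.mem_univ (i, t))) (hc.le.trans (le_of_eq (by ring)))) (by positivity))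
    (1 / (∑ t, C t + 1)) (by positivity)
  have e : (p : ℝ) • w = -∑ t, (ρ (b t) w - w) := by
    rw [Finset.sum_sub_distrib, h0 w hw]; simp [Nat.cast_smul_eq_nsmul]
  have h3 : (p : ℝ) ≤ (∑ t, C t) * (1 / (∑ t, C t + 1)) := by
    have := congrArg norm e
    rw [norm_smul, hw1, norm_neg, Real.norm_natCast, mul_one] at this
    rw [this, Finset.sum_mul]
    exact (norm_sum_le _ _).trans (Finset.sum_le_sum fun t _ => hC' t w _ (by positivity) hw2)
  have h4 : (36 : ℝ) ≤ p := by exact_mod_cast hx.hp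
  rw [mul_one_div, le_div_iff₀ (by positivity)] at h3
  nlinarith

end Crest.Agent.KEP
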