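import Crest.Agent.KEP.Model

/-! Twisted permutation operators on vector-valued `ℓ²`. -/

set_option autoImplicit false
set_option linter.unusedSectionVars false
open scoped InnerProductSpace

namespace Crest.Agent.KEP

abbrev L2 (α K : Type) [NormedAddCommGroup K] := lp (fun _ : α => K) 2

section
variable {α K : Type} [NormedAddCommGroup K] [InnerProductSpace ℂ K]

lemma T_aux (e : Equiv.Perm α) (d : K →L[ℂ] K) (ξ : L2 α K) (s : Finset α) :
    ∑ y ∈ s, ‖d (ξ (e⁻¹ y))‖ ^ (2 : ENNReal).toReal ≤ (‖d‖ * ‖ξ‖) ^ (2 : ENNReal).toReal := by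
  have h := lp.sum_rpow_le_norm_rpow (by norm_num) ξ (s.map (e⁻¹ : Equiv.Perm α).toEmbedding)
  rw [Finset.sum_map] at h
  simp only [ENNReal.toReal_ofNat, Real.rpow_ofNat, Equiv.coe_toEmbedding] at h ⊢
  calc _ ≤ ∑ y ∈ s, ‖d‖ ^ 2 * ‖ξ (e⁻¹ y)‖ ^ 2 := Finset.sum_le_sum fun y _ => by
        rw [← mul_pow]; exact pow_le_pow_left₀ (norm_nonneg _) (d.le_opNorm _) 2
    _ ≤ _ := by rw [← Finset.mul_sum, mul_pow]; gcongr

noncomputable def T0 (e : Equiv.Perm α) (d : K →L[ℂ] K) : L2 α K →L[ℂ] L2 α K :=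
  LinearMap.mkContinuous
    { toFun := fun ξ => ⟨fun y => d (ξ (e⁻¹ y)), memℓp_gen' (T_aux e d ξ)⟩
      map_add' := fun ξ η => lp.ext (funext fun y => by simp)
      map_smul' := fun c ξ => lp.ext (funext fun y => by simp) } ‖d‖ fun ξ =>
    lp.norm_le_of_forall_sum_le (by norm_num) (by positivity) (T_aux e d ξ)

/-- `d ⊗ e` -/
noncomputable def T (e : Equiv.Perm α) : (K →L[ℂ] K) →ₗ[ℂ] (L2 α K →L[ℂ] L2 α K) where
  toFun := T0 e
  map_add' _ _ := ContinuousLinearMap.ext fun _ => lp.ext (funext fun _ => rfl)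
  map_smul' _ _ := ContinuousLinearMap.ext fun _ => lp.ext (funext fun _ => rfl)

lemma T_apply (e : Equiv.Perm α) (d : K →L[ℂ] K) (ξ : L2 α K) (y : α) :
    T e d ξ y = d (ξ (e⁻¹ y)) := rfl

lemma norm_T_le (e : Equiv.Perm α) (d : K →L[ℂ] K) : ‖T e d‖ ≤ ‖d‖ :=
  ContinuousLinearMap.opNorm_le_bound _ (norm_nonneg _) fun _ =>
    lp.norm_le_of_forall_sum_le (by norm_num) (by positivity) (T_aux e d _)

lemma norm_T_apply (e : Equiv.Perm α) (d : K →L[ℂ] K) (ξ : L2 α K) : ‖T e d ξ‖ ≤ ‖d‖ * ‖ξ‖ :=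
  (T e d).le_of_opNorm_le (norm_T_le e d) ξ

lemma T_T (e e' : Equiv.Perm α) (d d' : K →L[ℂ] K) (ξ : L2 α K) :
    T e d (T e' d' ξ) = T (e * e') (d * d') ξ := lp.ext (funext fun _ => rfl)

lemma T_mul (e e' : Equiv.Perm α) (d d' : K →L[ℂ] K) :
    T e d * T e' d' = T (e * e') (d * d') := ContinuousLinearMap.ext (T_T e e' d d')

lemma T_one : T (1 : Equiv.Perm α) (1 : K →L[ℂ] K) = 1 :=
  ContinuousLinearMap.ext fun _ => lp.ext (funext fun _ => rfl)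

lemma inner_T [CompleteSpace K] (e : Equiv.Perm α) (d : K →L[ℂ] K) (ξ η : L2 α K) :
    ⟪T e d ξ, η⟫_ℂ = ⟪ξ, T e⁻¹ (star d) η⟫_ℂ := by
  rw [lp.inner_eq_tsum, lp.inner_eq_tsum, ← Equiv.tsum_eq e]
  refine tsum_congr fun y => ?_
  rw [T_apply, T_apply, ContinuousLinearMap.star_eq_adjoint, ContinuousLinearMap.adjoint_inner_right,
    inv_inv]
  simp

lemma T_single [DecidableEq α] (e : Equiv.Perm α) (d : K →L[ℂ] K) (y : α) (k : K) :
    T e d (lp.single 2 y k) = lp.single 2 (e y) (d k) := by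
  refine lp.ext (funext fun z => ?_)
  rw [T_apply, lp.single_apply, lp.single_apply]
  by_cases h : z = e y
  · subst h; simp
  · rw [Pi.single_eq_of_ne h, Pi.single_eq_of_ne, map_zero]
    rintro rfl
    simp at h

lemma T_congr {e e' : Equiv.Perm α} {P : Set α} (h : ∀ y ∈ P, e y = e' y) (d : K →L[ℂ] K)
    {ξ : L2 α K} (hξ : ∀ y ∉ P, ξ y = 0) : T e d ξ = T e' d ξ := by
  refine lp.ext (funext fun y => ?_)
  rw [T_apply, T_apply]
  by_cases h1 : e⁻¹ y ∈ P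
  · have : e'⁻¹ y = e⁻¹ y := by rw [Equiv.Perm.inv_eq_iff_eq, ← h _ h1]; simp
    rw [this]
  · by_cases h2 : e'⁻¹ y ∈ P
    · have : e⁻¹ y = e'⁻¹ y := by rw [Equiv.Perm.inv_eq_iff_eq, h _ h2]; simp
      rw [this]
    · rw [hξ _ h1, hξ _ h2]

end

variable {p : ℕ} [Fact p.Prime] {K : Type} [NormedAddCommGroup K] [InnerProductSpace ℂ K]

variable (K) in
/-- vectors supported on `P` with mean zero along the rotation -/
noncomputable def Wd (P : Set (Y p)) : Submodule ℂ (L2 (Y p) K) where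
  carrier := {ξ | (∀ y ∉ P, ξ y = 0) ∧ ∑ t, T (Cc t) 1 ξ = 0}
  add_mem' {a b} ha hb := ⟨fun y hy => by simp [ha.1 y hy, hb.1 y hy], by
    simp only [map_add, Finset.sum_add_distrib, ha.2, hb.2, add_zero]⟩
  zero_mem' := ⟨fun y _ => rfl, by simp⟩
  smul_mem' c a ha := ⟨fun y hy => by simp [ha.1 y hy], by
    simp only [map_smul, ← Finset.smul_sum, ha.2, smul_zero]⟩

lemma Wd_mono {P P' : Set (Y p)} (h : P ⊆ P') {ξ : L2 (Y p) K} (hξ : ξ ∈ Wd K P) : ξ ∈ Wd K P' :=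
  ⟨fun y hy => hξ.1 y fun h' => hy (h h'), hξ.2⟩

lemma T_mem {P P' : Set (Y p)} (g : Gam p) (h : ∀ y ∈ P, g.1 y ∈ P') (d : K →L[ℂ] K)
    {ξ : L2 (Y p) K} (hξ : ξ ∈ Wd K P) : T g.1 d ξ ∈ Wd K P' := by
  refine ⟨fun y hy => ?_, ?_⟩
  · rw [T_apply, hξ.1 _ fun h' => hy (by simpa using h _ h'), map_zero]
  · have : ∀ t, T (Cc t) 1 (T g.1 d ξ) = T g.1 d (T (Cc t) 1 ξ) := fun t => by
      rw [T_T, T_T, Cc_comm, one_mul, mul_one]
    simp only [this, ← map_sum, hξ.2, map_zero]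

lemma Wd_orth {P P' : Set (Y p)} (h : Disjoint P P') {ξ η : L2 (Y p) K} (hξ : ξ ∈ Wd K P)
    (hη : η ∈ Wd K P') : ⟪ξ, η⟫_ℂ = 0 := by
  rw [lp.inner_eq_tsum]
  refine (tsum_congr fun y => ?_).trans tsum_zero
  by_cases hy : y ∈ P
  · rw [hη.1 y (Set.disjoint_left.1 h hy), inner_zero_right]
  · rw [hξ.1 y hy, inner_zero_left]

lemma Lv_disj {m m' : ℕ} (h : m ≠ m') : Disjoint (Lv (p := p) m) (Lv m') :=
  Set.disjoint_left.2 fun y h1 h2 => h (by have := h1.1; have := h2.1; omega)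

lemma Lq_disj (m : ℕ) {j j' : ZMod p} (h : j ≠ j') : Disjoint (Lq m j) (Lq m j') :=
  Set.disjoint_left.2 fun _ h1 h2 => h (h1.2.symm.trans h2.2)

lemma bb_avg (m : ℕ) {ξ : L2 (Y p) K} (hξ : ξ ∈ Wd K (Lv m)) : ∑ t, T (bb (m : ℤ) t).1 1 ξ = 0 := by
  rw [← hξ.2]
  exact Finset.sum_congr rfl fun t _ => T_congr (fun y hy => bb_top m t hy) 1 hξ.1

lemma bb_fix {m k : ℕ} (h : m < k) (t : ZMod p) {ξ : L2 (Y p) K} (hξ : ξ ∈ Wd K (Lv m)) :
    T (bb (k : ℤ) t).1 1 ξ = ξ := by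
  rw [T_congr (e' := 1) (fun y hy => bb_high h t hy) 1 hξ.1, T_one]; rfl

open Classical in
/-- the basic vectors at the lowest level -/
noncomputable def vec (χ : AddChar (ZMod p) ℂ) : K →ₗ[ℂ] L2 (Y p) K :=
  ∑ j, χ j • lp.lsingle (𝕜 := ℂ) (E := fun _ : Y p => K) 2 (y0 j)

open Classical in
lemma vec_apply (χ : AddChar (ZMod p) ℂ) (k : K) :
    vec χ k = ∑ j, lp.single 2 (y0 j) (χ j • k) := by
  simp [vec, LinearMap.sum_apply, lp.single_smul]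

lemma T_vec (χ : AddChar (ZMod p) ℂ) (e : Equiv.Perm (Y p)) (t : ZMod p)
    (h : ∀ j, e (y0 j) = y0 (j + t)) (d : K →L[ℂ] K) (k : K) :
    T e d (vec χ k) = vec χ (χ (-t) • d k) := by
  classical
  rw [vec_apply, vec_apply, map_sum, ← Equiv.sum_comp (Equiv.addRight t)]
  conv_rhs => rw [← Equiv.sum_comp (Equiv.addRight t)]
  rw [Equiv.sum_comp (Equiv.addRight t) (fun j => T e d (lp.single 2 (y0 j) (χ j • k)))]
  refine Finset.sum_congr rfl fun j _ => ?_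
  rw [T_single, h, map_smul, smul_smul, ← χ.map_add_eq_mul]
  simp

lemma vec_y0 (χ : AddChar (ZMod p) ℂ) (k : K) : vec χ k (y0 0) = k := by
  classical
  rw [vec_apply, lp.coeFn_sum, Finset.sum_apply, Finset.sum_eq_single 0]
  · simp
  · exact fun j _ hj => lp.single_apply_ne _ _ _ fun h => hj (y0_inj h).symm
  · simp

lemma le_norm_vec (χ : AddChar (ZMod p) ℂ) (k : K) : ‖k‖ ≤ ‖vec χ k‖ := by
  have := lp.norm_apply_le_norm (by norm_num) (vec χ k) (y0 0)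
  rwa [vec_y0] at this

lemma norm_vec_le (χ : AddChar (ZMod p) ℂ) (k : K) : ‖vec χ k‖ ≤ p * ‖k‖ := by
  classical
  rw [vec_apply]
  refine (norm_sum_le _ _).trans (le_of_eq ?_)
  simp [lp.norm_single, norm_smul]

lemma vec_mem {χ : AddChar (ZMod p) ℂ} (hχ : χ ≠ 1) (k : K) : vec χ k ∈ Wd K (Lv 0) := by
  classical
  refine ⟨fun y hy => ?_, ?_⟩
  · rw [vec_apply, lp.coeFn_sum, Finset.sum_apply]
    exact Finset.sum_eq_zero fun j _ => lp.single_apply_ne _ _ _ fun h => hy (h ▸ y0_mem j)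
  · simp only [fun t => T_vec χ (Cc t) t (Cc_y0 t) (1 : K →L[ℂ] K) k, ← map_sum, ← Finset.sum_smul]
    rw [Equiv.sum_comp (Equiv.neg (ZMod p)) χ |>.symm.symm.trans (AddChar.sum_eq_zero_of_ne_one hχ)
      |> fun h => (show ∑ t, χ (-t) = 0 from h)]
    simp

end Crest.Agent.KEP
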