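import Crest.Agent.KEP.Gap

/-! The level-raising step, through an ultralimit. -/

set_option autoImplicit false
set_option linter.unusedSectionVars false
open scoped InnerProductSpace
open Filter Topology

namespace Crest.Agent.KEP

lemma exists_ulim (ω : Ultrafilter ℕ) (f : ℕ → ℝ) (C : ℝ) (h : ∀ n, |f n| ≤ C) :
    ∃ l, Tendsto f ω (𝓝 l) := by
  obtain ⟨c, -, hc⟩ := (isCompact_closedBall (0 : ℝ) C).ultrafilter_le_nhds (ω.map f) (by
    rw [Ultrafilter.coe_map, le_principal_iff, mem_map]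
    exact univ_mem' fun n => by simpa using h n)
  exact ⟨c, hc⟩

variable {W : ℕ → Type} [∀ n, NormedAddCommGroup (W n)]

lemma tendsto_close {F : Filter ℕ} {a b : ∀ n, W n} {l : ℝ} (hb : Tendsto (fun n => ‖b n‖) F (𝓝 l))
    (h : Tendsto (fun n => ‖a n - b n‖) F (𝓝 0)) : Tendsto (fun n => ‖a n‖) F (𝓝 l) := by
  have : Tendsto (fun n => ‖a n‖ - ‖b n‖) F (𝓝 0) :=
    squeeze_zero_norm (fun n => abs_norm_sub_norm_le _ _) h
  simpa using this.add hb

variable [∀ n, InnerProductSpace ℂ (W n)] {p : ℕ} [Fact p.Prime] {G : Type} [Group G]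

/-- left translation -/
noncomputable def lreg (G : Type) [Group G] : G →* Module.End ℝ (G →₀ ℝ) where
  toFun g := Finsupp.lmapDomain ℝ ℝ (g * ·)
  map_one' := by ext; simp
  map_mul' g h := by ext; simp [mul_assoc]

lemma lreg_single (g h : G) (r : ℝ) : lreg G g (Finsupp.single h r) = Finsupp.single (g * h) r := by
  simp [lreg]

theorem step_abs (ω : Ultrafilter ℕ) {x : Fin 4 → ZMod p → G} (hx : TData x) (τ : G)
    (htr : ∀ i ≠ 3, ∀ t j, ∃ i' r, x i t * (x 3 j * τ) = x 3 j * τ * (x i' t * x 3 r))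
    (T : ∀ n, G → W n →L[ℂ] W n) (hb : ∀ g, ∃ C, ∀ n, ‖T n g‖ ≤ C)
    (hm : ∀ g h, Tendsto (fun n => ‖T n g * T n h - T n (g * h)‖) ω (𝓝 0))
    (hi : ∀ g, ∃ δ : ℕ → ℝ, Tendsto δ ω (𝓝 0) ∧ ∀ n v w,
      ‖⟪T n g v, T n g w⟫_ℂ - ⟪v, w⟫_ℂ‖ ≤ δ n * ‖v‖ * ‖w‖)
    (h1 : Tendsto (fun n => ‖T n 1 - 1‖) ω (𝓝 0)) (ξ : ∀ n, W n) (hξ : ∀ n, ‖ξ n‖ ≤ 1)
    (hξ1 : ∀ᶠ n in ω, ‖ξ n‖ = 1 ∧ ∀ i t, ‖T n (x i t) (ξ n) - ξ n‖ ≤ 1 / 4)
    (U : ∀ n, ZMod p → Submodule ℂ (W n)) (U' : ∀ n, Submodule ℂ (W n))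
    (hU : ∀ n j, ∀ h ∈ Subgroup.closure (Set.range fun s : Fin 4 × ZMod p => x s.1 s.2),
      T n (x 3 j * τ * h) (ξ n) ∈ U n j)
    (horth : ∀ n j j', j ≠ j' → ∀ u ∈ U n j, ∀ u' ∈ U n j', ⟪u, u'⟫_ℂ = 0)
    (hle : ∀ n j, U n j ≤ U' n) (c : ℝ) (hc : 0 < c) :
    ∀ᶠ n in ω, ∃ η ∈ U' n, ‖η‖ = 1 ∧ ∀ i t, ‖T n (x i t) η - η‖ ≤ c := by
  set H := Subgroup.closure (Set.range fun s : Fin 4 × ZMod p => x s.1 s.2) with hH
  let Λ : ∀ n, (G →₀ ℝ) →ₗ[ℝ] W n := fun n => Finsupp.linearCombination ℝ fun g => T n g (ξ n)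
  have Λs : ∀ n g r, Λ n (Finsupp.single g r) = r • T n g (ξ n) := fun n g r => by simp [Λ]
  have Λb : ∀ a, ∃ C, ∀ n, ‖Λ n a‖ ≤ C := fun a => by
    induction a using Finsupp.induction_linear with
    | zero => exact ⟨0, by simp⟩
    | add a b ha hb =>
      obtain ⟨C, hC⟩ := ha; obtain ⟨C', hC'⟩ := hb
      exact ⟨C + C', fun n => by
        rw [map_add]; exact (norm_add_le _ _).trans (add_le_add (hC n) (hC' n))⟩
    | single g r =>
      obtain ⟨C, hC⟩ := hb g
      refine ⟨‖r‖ * C, fun n => ?_⟩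
      rw [Λs, norm_smul]
      exact mul_le_mul_of_nonneg_left (((T n g).le_opNorm _).trans
        ((mul_le_of_le_one_right (norm_nonneg _) (hξ n)).trans (hC n))) (norm_nonneg _)
  have hex : ∀ a b, ∃ l, Tendsto (fun n => (⟪Λ n a, Λ n b⟫_ℂ).re) ω (𝓝 l) := fun a b => by
    obtain ⟨C, hC⟩ := Λb a; obtain ⟨C', hC'⟩ := Λb b
    exact exists_ulim ω _ (C * C') fun n => (Complex.abs_re_le_norm _).trans
      ((norm_inner_le_norm _ _).trans
        (mul_le_mul (hC n) (hC' n) (norm_nonneg _) ((norm_nonneg _).trans (hC n))))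
  choose β hβ using hex
  let core : PreInnerProductSpace.Core ℝ (G →₀ ℝ) :=
    { inner := β
      conj_inner_symm := fun a b => tendsto_nhds_unique (hβ b a) ((hβ a b).congr fun n => by
        rw [← inner_conj_symm, Complex.conj_re])
      re_inner_nonneg := fun a => ge_of_tendsto' (hβ a a) fun n => inner_self_nonneg (𝕜 := ℂ)
      add_left := fun a b d => tendsto_nhds_unique (hβ (a + b) d) (((hβ a d).add (hβ b d)).congr
        fun n => by rw [map_add, inner_add_left, Complex.add_re])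
      smul_left := fun a b r => tendsto_nhds_unique (hβ (r • a) b) (((hβ a b).const_mul r).congr
        fun n => by rw [map_smul, ← Complex.coe_smul, inner_smul_left]; simp) }
  let : SeminormedAddCommGroup (G →₀ ℝ) :=
    InnerProductSpace.Core.toSeminormedAddCommGroup (c := core)
  let : InnerProductSpace ℝ (G →₀ ℝ) := InnerProductSpace.ofCore core
  have hin : ∀ a b : G →₀ ℝ, Tendsto (fun n => (⟪Λ n a, Λ n b⟫_ℂ).re) ω (𝓝 ⟪a, b⟫_ℝ) := hβ
  have hN : ∀ a : G →₀ ℝ, Tendsto (fun n => ‖Λ n a‖) ω (𝓝 ‖a‖) := fun a => by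
    rw [norm_eq_sqrt_real_inner]
    exact (hin a a).sqrt.congr fun n => (norm_eq_sqrt_re_inner (𝕜 := ℂ) _).symm
  have hact : ∀ g a, Tendsto (fun n => ‖T n g (Λ n a) - Λ n (lreg G g a)‖) ω (𝓝 0) := fun g a => by
    induction a using Finsupp.induction_linear with
    | zero => simp
    | add a b ha hb =>
      refine squeeze_zero (fun _ => norm_nonneg _) (fun n => ?_) (by simpa using ha.add hb)
      simp only [map_add]
      rw [add_sub_add_comm]; exact norm_add_le _ _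
    | single h r =>
      refine squeeze_zero (fun _ => norm_nonneg _) (fun n => ?_)
        (by simpa using (hm g h).const_mul ‖r‖)
      rw [lreg_single, Λs, Λs, ← Complex.coe_smul, ← Complex.coe_smul, map_smul, ← smul_sub,
        norm_smul, Complex.norm_real]
      exact mul_le_mul_of_nonneg_left (((T n g * T n h - T n (g * h)).le_opNorm (ξ n)).trans
        (mul_le_of_le_one_right (norm_nonneg _) (hξ n))) (abs_nonneg _)
  have hnorm : ∀ g (a : G →₀ ℝ), ‖lreg G g a‖ = ‖a‖ := fun g a => by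
    obtain ⟨δ, hδ, hδ'⟩ := hi g
    obtain ⟨C, hC⟩ := Λb a
    have h2 : Tendsto (fun n => ‖T n g (Λ n a)‖) ω (𝓝 ‖lreg G g a‖) := tendsto_close (hN _) (hact g a)
    have h3 : Tendsto (fun n => ‖T n g (Λ n a)‖ ^ 2 - ‖Λ n a‖ ^ 2) ω (𝓝 0) := by
      refine squeeze_zero_norm (fun n => ?_) (by simpa using (hδ.abs.mul_const C).mul_const C)
      have := hδ' n (Λ n a) (Λ n a)
      rw [inner_self_eq_norm_sq_to_K, inner_self_eq_norm_sq_to_K] at this
      have e : ‖‖T n g (Λ n a)‖ ^ 2 - ‖Λ n a‖ ^ 2‖ =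
          ‖((‖T n g (Λ n a)‖ : ℂ)) ^ 2 - ((‖Λ n a‖ : ℂ)) ^ 2‖ := by
        rw [← Complex.norm_real]; push_cast; rfl
      rw [e]
      refine this.trans ?_
      have := hC n
      have := le_abs_self (δ n)
      have := norm_nonneg (Λ n a)
      have : 0 ≤ C := this.trans (hC n)
      gcongr
    have h4 := tendsto_nhds_unique ((h2.pow 2).sub ((hN a).pow 2)) h3
    exact (sq_eq_sq₀ (norm_nonneg _) (norm_nonneg _)).1 (sub_eq_zero.1 h4)
  have hρ : ∀ g (a b : G →₀ ℝ), ⟪lreg G g a, lreg G g b⟫_ℝ = ⟪a, b⟫_ℝ := fun g a b => by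
    rw [real_inner_eq_norm_add_mul_self_sub_norm_mul_self_sub_norm_mul_self_div_two,
      real_inner_eq_norm_add_mul_self_sub_norm_mul_self_sub_norm_mul_self_div_two, ← map_add,
      hnorm, hnorm, hnorm]
  have hdisp : ∀ g a, Tendsto (fun n => ‖T n g (Λ n a) - Λ n a‖) ω (𝓝 ‖lreg G g a - a‖) :=
    fun g a => tendsto_close (hN _) ((hact g a).congr fun n => by rw [map_sub]; congr 1; abel)
  have hT1 : Tendsto (fun n => ‖T n 1 (ξ n) - ξ n‖) ω (𝓝 0) :=
    squeeze_zero (fun _ => norm_nonneg _) (fun n => (((T n 1 - 1).le_opNorm (ξ n)).trans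
      (mul_le_of_le_one_right (norm_nonneg _) (hξ n)))) h1
  have hp0 : (0 : ℝ) < p := p_pos
  obtain ⟨v, hv, hv1, hv2⟩ := gap (lreg G) hρ hx (Finsupp.supported ℝ ℝ (H : Set G))
    (fun i t v hv => by
      classical
      rw [Finsupp.mem_supported] at hv ⊢
      refine (Finset.coe_subset.2 (Finsupp.mapDomain_support (f := (x i t * ·)) (s := v))).trans ?_
      rw [Finset.coe_image]
      rintro _ ⟨g, hg, rfl⟩
      exact H.mul_mem (Subgroup.subset_closure ⟨(i, t), rfl⟩) (hv hg))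
    (Finsupp.single 1 1) (Finsupp.single_mem_supported ℝ _ H.one_mem)
    (tendsto_nhds_unique (hN _) (tendsto_close (b := ξ)
      (tendsto_const_nhds.congr' (hξ1.mono fun n h => h.1.symm)) (hT1.congr fun n => by simp [Λs])))
    (fun i t => by
      have h0 := hT1.const_add (1 / 4)
      rw [add_zero] at h0
      refine le_of_tendsto_of_tendsto (hN _) h0 (hξ1.mono fun n h => ?_)
      simp only [lreg_single, map_sub, Λs, one_smul, mul_one]
      have := norm_sub_le (T n (x i t) (ξ n) - ξ n) (T n 1 (ξ n) - ξ n)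
      rw [sub_sub_sub_cancel_right] at this
      have := h.2 i t
      linarith)
    (c / (8 * p)) (by positivity)
  set v' := ∑ j, lreg G (x 3 j * τ) v with hv'
  have hmem : ∀ n j, Λ n (lreg G (x 3 j * τ) v) ∈ U n j := fun n j => by
    conv => enter [2, 2, 2]; rw [← Finsupp.sum_single v, Finsupp.sum]
    rw [map_sum, map_sum]
    refine Submodule.sum_mem _ fun h hh => ?_
    rw [lreg_single, Λs, ← Complex.coe_smul]
    exact Submodule.smul_mem _ _ (hU n j h (hv hh))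
  have hge : 1 ≤ ‖v'‖ := by
    have h2 := real_inner_le_norm v' (lreg G (x 3 0 * τ) v)
    rw [hnorm, hv1, mul_one, hv', sum_inner, Finset.sum_eq_single 0, hρ, real_inner_self_eq_norm_sq,
      hv1, one_pow] at h2
    · exact h2
    · exact fun j _ hj => tendsto_nhds_unique (hin _ _) (tendsto_const_nhds.congr fun n => by
        rw [horth n j 0 hj _ (hmem n j) _ (hmem n 0), Complex.zero_re])
    · simp
  have hle' : ∀ i t, ‖lreg G (x i t) v' - v'‖ ≤ c / 4 := fun i t => by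
    by_cases h3 : i = 3
    · subst h3
      have : lreg G (x 3 t) v' = v' := by
        rw [hv', map_sum]
        simp only [← Module.End.mul_apply, ← map_mul, ← mul_assoc, ← hx.one 3 _]
        exact Equiv.sum_comp (Equiv.addLeft t) fun j => lreg G (x 3 j * τ) v
      rw [this, sub_self, norm_zero]; positivity
    · rw [hv', map_sum, ← Finset.sum_sub_distrib]
      refine (norm_sum_le _ _).trans ?_
      calc _ ≤ ∑ _j : ZMod p, 2 * (c / (8 * p)) := Finset.sum_le_sum fun j _ => ?_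
        _ = c / 4 := by simp; field_simp; ring
      obtain ⟨i', r, h⟩ := htr i h3 t j
      rw [← Module.End.mul_apply, ← map_mul, h, map_mul, Module.End.mul_apply, ← map_sub, hnorm]
      have e : lreg G (x i' t * x 3 r) v - v =
          lreg G (x i' t) (lreg G (x 3 r) v - v) + (lreg G (x i' t) v - v) := by simp
      rw [e]
      refine (norm_add_le _ _).trans ?_
      rw [hnorm]; linarith [hv2 i' t, hv2 3 r]
  have e1 : ∀ᶠ n in ω, 1 / 2 < ‖Λ n v'‖ := (hN v').eventually (lt_mem_nhds (by linarith))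
  have e2 : ∀ᶠ n in (ω : Filter ℕ), ∀ s : Fin 4 × ZMod p,
      ‖T n (x s.1 s.2) (Λ n v') - Λ n v'‖ < c / 2 :=
    eventually_all.2 fun s => (hdisp _ v').eventually (gt_mem_nhds (by linarith [hle' s.1 s.2]))
  filter_upwards [e1, e2] with n h2 h3
  have hn : 0 < ‖Λ n v'‖ := by linarith
  refine ⟨((‖Λ n v'‖⁻¹ : ℝ) : ℂ) • Λ n v', Submodule.smul_mem _ _ ?_, ?_, fun i t => ?_⟩
  · rw [hv', map_sum]; exact Submodule.sum_mem _ fun j _ => hle n j (hmem n j)
  · rw [norm_smul, Complex.norm_real, norm_inv, norm_norm, inv_mul_cancel₀ hn.ne']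
  · rw [map_smul, ← smul_sub, norm_smul, Complex.norm_real, norm_inv, norm_norm, inv_mul_le_iff₀ hn]
    nlinarith [h3 (i, t)]

end Crest.Agent.KEP
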