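import Crest.Agent.KEP.Gap

/-! Only finitely many levels can be almost contained: Schmidt decomposition. -/

set_option autoImplicit false
set_option linter.unusedSectionVars false
open scoped InnerProductSpace TensorProduct ComplexConjugate

namespace Crest.Agent.KEP

variable {W : Type} [NormedAddCommGroup W] [InnerProductSpace ℂ W] {ι : Type} [Fintype ι]

/-- the coefficient of `M ⊗ M̄` -/
noncomputable def FF (M : W →L[ℂ] W) (a a' : ι → W) : ℝ :=
  ∑ k, ∑ l, (⟪a k, M (a l)⟫_ℂ * conj ⟪a' k, M (a' l)⟫_ℂ).re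

lemma FF_symm (M : W →L[ℂ] W) (a a' : ι → W) : FF M a a' = FF M a' a :=
  Finset.sum_congr rfl fun k _ => Finset.sum_congr rfl fun l _ => by
    rw [← Complex.conj_re, map_mul, Complex.conj_conj, mul_comm]

section pair
variable {p : ℕ} [Fact p.Prime] {G : Type} [Group G] {x : Fin 4 → ZMod p → G} (hx : TData x)
include hx

lemma pair_real {E : Type} [NormedAddCommGroup E] [InnerProductSpace ℝ E] (N : G →* Module.End ℝ E)
    (hN : ∀ g v w, ⟪N g v, N g w⟫_ℝ = ⟪v, w⟫_ℝ) (a a' : ι → E) (F : G → ℝ)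
    (hF : ∀ g, F g = ∑ k, ∑ l, ⟪a k, N g (a l)⟫_ℝ * ⟪a' k, N g (a' l)⟫_ℝ) :
    (∀ g, F g ≤ F 1) ∧ ∀ (U U' : Set E), (∀ i t, ∀ u ∈ U, N (x i t) u ∈ U) →
      (∀ i t, ∀ u ∈ U', N (x i t) u ∈ U') → ∀ b : ZMod p → G,
      (∀ t, b t ∈ Subgroup.closure (Set.range fun s : Fin 4 × ZMod p => x s.1 s.2)) →
      (∀ t, ∀ u ∈ U, N (b t) u = u) → (∀ u ∈ U', ∑ t, N (b t) u = 0) → (∀ k, a k ∈ U) →
      (∀ k, a' k ∈ U') → F 1 / 32 ≤ ∑ s : Fin 4 × ZMod p, (F 1 - F (x s.1 s.2)) := by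
  let ρ : G →* Module.End ℝ (E ⊗[ℝ] E) :=
    { toFun := fun g => TensorProduct.map (N g) (N g)
      map_one' := by ext; simp
      map_mul' := fun g h => by ext; simp }
  have ρt : ∀ g u v, ρ g (u ⊗ₜ v) = N g u ⊗ₜ N g v := fun _ _ _ => rfl
  have hρ : ∀ g v w, ⟪ρ g v, ρ g w⟫_ℝ = ⟪v, w⟫_ℝ := fun g =>
    TensorProduct.inner_map_map ((N g).isometryOfInner (hN g)) ((N g).isometryOfInner (hN g))
  let X : E ⊗[ℝ] E := ∑ k, a k ⊗ₜ a' k
  have hX : ∀ g, ⟪X, ρ g X⟫_ℝ = F g := fun g => by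
    simp only [X, map_sum, ρt, sum_inner, inner_sum, TensorProduct.inner_tmul, hF]
    exact Finset.sum_comm
  have hX1 : ‖X‖ ^ 2 = F 1 := by
    rw [← hX 1, map_one, Module.End.one_apply]; exact (real_inner_self_eq_norm_sq X).symm
  have hd : ∀ g, ‖ρ g X - X‖ ^ 2 = 2 * (F 1 - F g) := fun g => by
    rw [norm_sub_sq_real, norm_rho ρ hρ, real_inner_comm, hX, hX1]; ring
  refine ⟨fun g => by nlinarith [hd g, sq_nonneg ‖ρ g X - X‖], fun U U' hU hU' b hb h1 h0 ha ha' => ?_⟩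
  have key := moved ρ hρ hx (Submodule.span ℝ {z | ∃ u ∈ U, ∃ u' ∈ U', z = u ⊗ₜ[ℝ] u'})
    (fun i t v hv => by
      induction hv using Submodule.span_induction with
      | mem z hz =>
        obtain ⟨u, hu, u', hu', rfl⟩ := hz
        exact Submodule.subset_span ⟨_, hU i t u hu, _, hU' i t u' hu', rfl⟩
      | zero => simp
      | add _ _ _ _ h h' => rw [map_add]; exact Submodule.add_mem _ h h'
      | smul c _ _ h => rw [map_smul]; exact Submodule.smul_mem _ c h) b hb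
    (fun v hv => by
      induction hv using Submodule.span_induction with
      | mem z hz =>
        obtain ⟨u, hu, u', hu', rfl⟩ := hz
        simp only [ρt, h1 _ u hu, ← TensorProduct.tmul_sum, h0 u' hu', TensorProduct.tmul_zero]
      | zero => simp
      | add _ _ _ _ h h' => simp only [map_add, Finset.sum_add_distrib, h, h', add_zero]
      | smul c _ _ h => simp only [map_smul, ← Finset.smul_sum, h, smul_zero]) X
    (Submodule.sum_mem _ fun k _ => Submodule.subset_span ⟨_, ha k, _, ha' k, rfl⟩)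
  simp only [hd, hX1, ← Finset.mul_sum] at key
  linarith

lemma pair_aux (M : G →* (W →L[ℂ] W)) (hM : ∀ g v w, ⟪M g v, M g w⟫_ℂ = ⟪v, w⟫_ℂ) (a a' : ι → W) :
    (∀ g, FF (M g) a a' ≤ FF 1 a a') ∧ ∀ (U U' : Submodule ℂ W), (∀ i t, ∀ u ∈ U, M (x i t) u ∈ U) →
      (∀ i t, ∀ u ∈ U', M (x i t) u ∈ U') → ∀ b : ZMod p → G,
      (∀ t, b t ∈ Subgroup.closure (Set.range fun s : Fin 4 × ZMod p => x s.1 s.2)) →
      (∀ t, ∀ u ∈ U, M (b t) u = u) → (∀ u ∈ U', ∑ t, M (b t) u = 0) → (∀ k, a k ∈ U) →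
      (∀ k, a' k ∈ U') →
      FF 1 a a' / 32 ≤ ∑ s : Fin 4 × ZMod p, (FF 1 a a' - FF (M (x s.1 s.2)) a a') := by
  let _ : InnerProductSpace ℝ W := InnerProductSpace.complexToReal
  have hr : ∀ v w : W, ⟪v, w⟫_ℝ = (⟪v, w⟫_ℂ).re := fun _ _ => rfl
  let N : G →* Module.End ℝ W :=
    { toFun := fun g => (M g).toLinearMap.restrictScalars ℝ
      map_one' := by ext; simp
      map_mul' := fun g h => by ext; simp }
  have hN : ∀ g v, N g v = M g v := fun _ _ => rfl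
  have key := pair_real hx N (fun g v w => congrArg Complex.re (hM g v w))
    (Sum.elim a fun k => Complex.I • a k) (Sum.elim a' fun k => Complex.I • a' k)
    (fun g => 2 * FF (M g) a a') fun g => by
      change _ = ∑ k, ∑ l, (⟪_, M g _⟫_ℂ).re * (⟪_, M g _⟫_ℂ).re
      simp only [Fintype.sum_sum_type, Sum.elim_inl, Sum.elim_inr, map_smul, inner_smul_left,
        inner_smul_right, FF, Finset.mul_sum, ← Finset.sum_add_distrib]
      refine Finset.sum_congr rfl fun k _ => Finset.sum_congr rfl fun l _ => ?_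
      generalize ⟪a k, M g (a l)⟫_ℂ = z
      generalize ⟪a' k, M g (a' l)⟫_ℂ = z'
      simp; ring
  simp only [map_one] at key
  refine ⟨fun g => by linarith [key.1 g], fun U U' hU hU' b hb h1 h0 ha ha' => ?_⟩
  have := key.2 U U' hU hU' b hb h1 h0 (by rintro (k | k); exacts [ha k, U.smul_mem _ (ha k)])
    (by rintro (k | k); exacts [ha' k, U'.smul_mem _ (ha' k)])
  simp only [← mul_sub, ← Finset.mul_sum] at this
  linarith

end pair

variable {H : Type} [NormedAddCommGroup H] [InnerProductSpace ℂ H] [CompleteSpace H]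

lemma tens [DecidableEq ι] (u : Matrix ι ι ℂ) (hu : u * star u = 1) (a : ι → H) (b : ι → W) :
    ∑ k, (∑ i, u i k • a i) ⊗ₜ[ℂ] (∑ j, conj (u j k) • b j) = ∑ i, a i ⊗ₜ[ℂ] b i := by
  have h : ∀ i j, ∑ k, u i k * conj (u j k) = if i = j then 1 else 0 := fun i j => by
    simpa [Matrix.mul_apply, Matrix.one_apply] using congrFun (congrFun hu i) j
  simp only [TensorProduct.sum_tmul, TensorProduct.tmul_sum, TensorProduct.smul_tmul_smul]
  rw [Finset.sum_comm]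
  refine Finset.sum_congr rfl fun j _ => ?_
  rw [Finset.sum_comm]
  simp [← Finset.sum_smul, h]

lemma tens_inner [DecidableEq ι] (u : Matrix ι ι ℂ) (hu : u * star u = 1) (a a' : ι → H)
    (b b' : ι → W) : ∑ k, ∑ l, ⟪∑ i, u i k • a i, ∑ i, u i l • a' i⟫_ℂ *
      ⟪∑ j, conj (u j k) • b j, ∑ j, conj (u j l) • b' j⟫_ℂ = ∑ i, ∑ j, ⟪a i, a' j⟫_ℂ * ⟪b i, b' j⟫_ℂ := by
  have h := congrArg₂ (fun x y : H ⊗[ℂ] W => ⟪x, y⟫_ℂ) (tens u hu a b) (tens u hu a' b')
  simp only [sum_inner (𝕜 := ℂ) (E := H ⊗[ℂ] W), inner_sum (𝕜 := ℂ) (E := H ⊗[ℂ] W),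
    TensorProduct.inner_tmul] at h
  exact h

theorem core {S : Type} [Fintype S] (R : ℕ) (M : S → W →L[ℂ] W) (U : Fin R → Submodule ℂ W)
    (hU : ∀ s m, ∀ u ∈ U m, M s u ∈ U m)
    (horth : ∀ m m', m ≠ m' → ∀ u ∈ U m, ∀ u' ∈ U m', ⟪u, u'⟫_ℂ = 0)
    (h1 : ∀ s (a a' : ι → W), FF (M s) a a' ≤ FF 1 a a')
    (h2 : ∀ m m', m ≠ m' → ∀ a a' : ι → W, (∀ k, a k ∈ U m) → (∀ k, a' k ∈ U m') →
      FF 1 a a' / 32 ≤ ∑ s, (FF 1 a a' - FF (M s) a a'))
    (V : ι → H) (hV : Orthonormal ℂ V) (A : S → H →L[ℂ] H) (C κ : ℝ) (hC : 0 < C) (hκ : 0 ≤ κ)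
    (hA : ∀ s, ‖A s‖ ≤ C) (Ξ : Fin R → ι → W) (hΞ : ∀ m i, Ξ m i ∈ U m)
    (hn : ∀ m, ∑ i, ‖Ξ m i‖ ^ 2 = 1)
    (hκ' : ∀ s m, κ ≤ (∑ i, ∑ j, ⟪V i, A s (V j)⟫_ℂ * ⟪Ξ m i, M s (Ξ m j)⟫_ℂ).re) :
    ((R : ℝ) - Fintype.card ι) / 32 ≤ Fintype.card S * (R * (1 - κ ^ 2 / C ^ 2)) := by
  classical
  have osum : ∀ (a b : Fin R → W), (∀ m, a m ∈ U m) → (∀ m, b m ∈ U m) →
      ⟪∑ m, a m, ∑ m, b m⟫_ℂ = ∑ m, ⟪a m, b m⟫_ℂ := fun a b ha hb => by
    rw [sum_inner]
    refine Finset.sum_congr rfl fun m _ => ?_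
    rw [inner_sum, Finset.sum_eq_single m (fun m' _ h => horth m m' h.symm _ (ha m) _ (hb m')) (by simp)]
  set Ξ' : ι → W := fun i => ∑ m, Ξ m i with hΞ'
  have hG : (Matrix.gram ℂ Ξ').transpose.IsHermitian := (Matrix.isHermitian_gram ℂ Ξ').transpose
  set u : Matrix ι ι ℂ := hG.eigenvectorUnitary.1 with hu
  have u1 : u * star u = 1 := Unitary.coe_mul_star_self _
  have u2 : star u * u = 1 := Unitary.coe_star_mul_self _
  set g : Fin R → ι → W := fun m k => ∑ j, conj (u j k) • Ξ m j with hg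
  set g' : ι → W := fun k => ∑ j, conj (u j k) • Ξ' j with hg'
  set V' : ι → H := fun k => ∑ i, u i k • V i with hV'
  have gU : ∀ m k, g m k ∈ U m := fun m k => Submodule.sum_mem _ fun j _ => (U m).smul_mem _ (hΞ m j)
  have gs : ∀ k, g' k = ∑ m, g m k := fun k => by
    simp only [hg', hg, hΞ', Finset.smul_sum]; exact Finset.sum_comm
  have oV : Orthonormal ℂ V' := by
    rw [orthonormal_iff_ite]
    intro k l
    have := congrFun (congrFun u2 k) l
    simp only [Matrix.mul_apply, Matrix.star_apply, Matrix.one_apply] at this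
    simp only [hV', sum_inner, inner_sum, inner_smul_left, inner_smul_right,
      orthonormal_iff_ite.1 hV, ← this]
    simp [mul_comm]
  have og : ∀ k l, k ≠ l → ⟪g' k, g' l⟫_ℂ = 0 := fun k l hkl => by
    have h := congrFun (congrFun hG.conjStarAlgAut_star_eigenvectorUnitary l) k
    rw [Matrix.diagonal_apply_ne _ hkl.symm] at h
    rw [← h]
    simp only [Unitary.conjStarAlgAut_apply, Unitary.coe_star, star_star, ← hu, Matrix.mul_apply,
      Matrix.star_apply, Matrix.transpose_apply, Matrix.gram_apply, hg', sum_inner, inner_sum,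
      inner_smul_left, inner_smul_right, Finset.sum_mul, Finset.mul_sum]
    rw [Finset.sum_comm]
    exact Finset.sum_congr rfl fun i _ => Finset.sum_congr rfl fun j _ => by simp; ring
  have gn : ∀ m, ∑ k, ‖g m k‖ ^ 2 = 1 := fun m => by
    have h := tens_inner u u1 V V (Ξ m) (Ξ m)
    change ∑ k, ∑ l, ⟪V' k, V' l⟫_ℂ * ⟪g m k, g m l⟫_ℂ = _ at h
    simp only [orthonormal_iff_ite.1 hV, orthonormal_iff_ite.1 oV, ite_mul, one_mul, zero_mul,
      Finset.sum_ite_eq, Finset.mem_univ, if_true, inner_self_eq_norm_sq_to_K] at h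
    rw [← hn m]
    exact_mod_cast h
  set l : ι → ℝ := fun k => ‖g' k‖ with hl
  have l0 : ∀ k, 0 ≤ l k := fun k => norm_nonneg _
  have l1 : ∀ k, l k ^ 2 = ∑ m, ‖g m k‖ ^ 2 := fun k => by
    have := osum (fun m => g m k) (fun m => g m k) (fun m => gU m k) fun m => gU m k
    simp only [← gs, inner_self_eq_norm_sq_to_K] at this
    exact_mod_cast this
  have l2 : ∑ k, l k ^ 2 = R := by simp only [l1]; rw [Finset.sum_comm]; simp [gn]
  set w : Fin R → ι → W := fun m k => ((√(l k))⁻¹ : ℂ) • g m k with hw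
  set w' : ι → W := fun k => ((√(l k))⁻¹ : ℂ) • g' k with hw'
  have wU : ∀ m k, w m k ∈ U m := fun m k => (U m).smul_mem _ (gU m k)
  have ws : ∀ k, w' k = ∑ m, w m k := fun k => by simp only [hw, hw', gs, Finset.smul_sum]
  have gw : ∀ k, g' k = (√(l k) : ℂ) • w' k := fun k => by
    rcases (l0 k).eq_or_lt with h | h
    · have : g' k = 0 := norm_eq_zero.1 h.symm
      simp [hw', this]
    · rw [hw', smul_smul, mul_inv_cancel₀ (by exact_mod_cast (Real.sqrt_pos.2 h).ne'), one_smul]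
  have nw : ∀ (y : W) k, ‖((√(l k))⁻¹ : ℂ) • y‖ ^ 2 = ‖y‖ ^ 2 / l k := fun y k => by
    rw [norm_smul, mul_pow, norm_inv, Complex.norm_real, Real.norm_eq_abs, inv_pow, sq_abs,
      Real.sq_sqrt (l0 k)]; ring
  have Φe : ∀ N : W →L[ℂ] W, (∀ m, ∀ u ∈ U m, N u ∈ U m) →
      ∑ k, ∑ j, ‖⟪w' k, N (w' j)⟫_ℂ‖ ^ 2 = ∑ m, ∑ m', FF N (w m) (w m') := fun N hN => by
    have e : ∀ k j, ‖⟪w' k, N (w' j)⟫_ℂ‖ ^ 2 =
        ∑ m, ∑ m', (⟪w m k, N (w m j)⟫_ℂ * conj ⟪w m' k, N (w m' j)⟫_ℂ).re := fun k j => by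
      rw [← Complex.normSq_eq_norm_sq, ← Complex.ofReal_re (Complex.normSq _), ← Complex.mul_conj,
        ws, ws, map_sum, osum _ _ (fun m => wU m k) fun m => hN m _ (wU m j), map_sum,
        Finset.sum_mul_sum, Complex.re_sum]
      simp only [Complex.re_sum]
    simp only [e, FF]
    calc _ = ∑ k, ∑ m, ∑ j, ∑ m', _ := Finset.sum_congr rfl fun k _ => Finset.sum_comm
      _ = ∑ m, ∑ k, ∑ j, ∑ m', _ := Finset.sum_comm
      _ = ∑ m, ∑ k, ∑ m', ∑ j, _ :=
        Finset.sum_congr rfl fun m _ => Finset.sum_congr rfl fun k _ => Finset.sum_comm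
      _ = _ := Finset.sum_congr rfl fun m _ => Finset.sum_comm
  have Φ1 : ∑ m, ∑ m', FF 1 (w m) (w m') = R := by
    rw [← Φe 1 fun m u h => h, ← l2]
    refine Finset.sum_congr rfl fun k _ => ?_
    rw [Finset.sum_eq_single k (fun j _ h => by
      simp [hw', og k j h.symm]) (by simp)]
    rw [one_apply_eq_self, inner_self_eq_norm_sq_to_K, norm_pow,
      RCLike.norm_ofReal, abs_norm, nw]
    change (l k ^ 2 / l k) ^ 2 = l k ^ 2
    rcases (l0 k).eq_or_lt with h | h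
    · simp [← h]
    · field_simp
  have Φs : ∀ s, R * (κ ^ 2 / C ^ 2) ≤ ∑ m, ∑ m', FF (M s) (w m) (w m') := fun s => by
    rw [← Φe (M s) (hU s)]
    set Φ := ∑ k, ∑ j, ‖⟪w' k, M s (w' j)⟫_ℂ‖ ^ 2
    set θ : ι → ι → ℝ := fun k j => ‖⟪V' k, A s (V' j)⟫_ℂ‖ with hθ
    have a1 : R * κ ≤ ∑ k, ∑ j, √(l k) * √(l j) * θ k j * ‖⟪w' k, M s (w' j)⟫_ℂ‖ := by
      have h := tens_inner u u1 V (fun i => A s (V i)) Ξ' fun i => M s (Ξ' i)
      simp only [← map_smul, ← map_sum] at h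
      change ∑ k, ∑ j, ⟪V' k, A s (V' j)⟫_ℂ * ⟪g' k, M s (g' j)⟫_ℂ = _ at h
      have e : ∑ i, ∑ j, ⟪V i, A s (V j)⟫_ℂ * ⟪Ξ' i, M s (Ξ' j)⟫_ℂ =
          ∑ m, ∑ i, ∑ j, ⟪V i, A s (V j)⟫_ℂ * ⟪Ξ m i, M s (Ξ m j)⟫_ℂ := by
        simp only [hΞ', map_sum, fun i j => osum _ _ (fun m => hΞ m i) fun m => hU s m _ (hΞ m j),
          Finset.mul_sum]
        exact (Finset.sum_congr rfl fun i _ => Finset.sum_comm).trans Finset.sum_comm
      calc R * κ = ∑ _m : Fin R, κ := by simp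
        _ ≤ ∑ m, (∑ i, ∑ j, ⟪V i, A s (V j)⟫_ℂ * ⟪Ξ m i, M s (Ξ m j)⟫_ℂ).re :=
          Finset.sum_le_sum fun m _ => hκ' s m
        _ = (∑ k, ∑ j, ⟪V' k, A s (V' j)⟫_ℂ * ⟪g' k, M s (g' j)⟫_ℂ).re := by
          rw [h, e, Complex.re_sum]
        _ ≤ _ := by
          refine (Complex.re_le_norm _).trans ((norm_sum_le _ _).trans (Finset.sum_le_sum fun k _ =>
            (norm_sum_le _ _).trans (Finset.sum_le_sum fun j _ => le_of_eq ?_)))
          rw [gw k, gw j, map_smul, inner_smul_left, inner_smul_right]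
          simp only [norm_mul, RCLike.norm_conj, Complex.norm_real, Real.norm_eq_abs,
            abs_of_nonneg (Real.sqrt_nonneg _), hθ]
          ring
    have nV : ∀ k, ‖V' k‖ = 1 := oV.1
    have b1 : ∀ j, ∑ k, θ k j ^ 2 ≤ C ^ 2 := fun j => (oV.sum_inner_products_le _).trans
      (pow_le_pow_left₀ (norm_nonneg _) (by simpa [nV] using (A s).le_of_opNorm_le (hA s) (V' j)) 2)
    have b2 : ∀ k, ∑ j, θ k j ^ 2 ≤ C ^ 2 := fun k => by
      have := oV.sum_inner_products_le (ContinuousLinearMap.adjoint (A s) (V' k)) (s := Finset.univ)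
      simp only [hθ, ← ContinuousLinearMap.adjoint_inner_left (A s), norm_inner_symm _ (V' _)]
      refine this.trans (pow_le_pow_left₀ (norm_nonneg _) ?_ 2)
      simpa [nV] using (ContinuousLinearMap.adjoint (A s)).le_of_opNorm_le
        ((LinearIsometryEquiv.norm_map _ _).trans_le (hA s)) (V' k)
    have a2 : ∑ k, ∑ j, (√(l k) * √(l j) * θ k j) ^ 2 ≤ C ^ 2 * R := by
      calc _ ≤ ∑ k, ∑ j, (l k ^ 2 * θ k j ^ 2 / 2 + l j ^ 2 * θ k j ^ 2 / 2) :=
            Finset.sum_le_sum fun k _ => Finset.sum_le_sum fun j _ => by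
              rw [mul_pow, mul_pow, Real.sq_sqrt (l0 k), Real.sq_sqrt (l0 j)]
              nlinarith [sq_nonneg (l k - l j), sq_nonneg (θ k j)]
        _ = ∑ k, l k ^ 2 * (∑ j, θ k j ^ 2) / 2 + ∑ j, l j ^ 2 * (∑ k, θ k j ^ 2) / 2 := by
            simp only [Finset.sum_add_distrib, Finset.mul_sum, Finset.sum_div]
            rw [Finset.sum_comm (f := fun k j => l j ^ 2 * θ k j ^ 2 / 2)]
        _ ≤ ∑ k, l k ^ 2 * C ^ 2 / 2 + ∑ j, l j ^ 2 * C ^ 2 / 2 := by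
            gcongr with k _ j _
            · exact b2 k
            · exact b1 j
        _ = _ := by rw [← Finset.sum_div, ← Finset.sum_mul, l2]; ring
    have a3 := Finset.sum_mul_sq_le_sq_mul_sq Finset.univ
      (fun q : ι × ι => √(l q.1) * √(l q.2) * θ q.1 q.2) fun q => ‖⟪w' q.1, M s (w' q.2)⟫_ℂ‖
    simp only [Fintype.sum_prod_type] at a3
    have hΦ : 0 ≤ Φ := by positivity
    have a4 : (R * κ) ^ 2 ≤ C ^ 2 * R * Φ :=
      (pow_le_pow_left₀ (by positivity) a1 2).trans (a3.trans (mul_le_mul_of_nonneg_right a2 hΦ))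
    rcases (Nat.cast_nonneg (α := ℝ) R).eq_or_lt with h | h
    · rw [← h]; simpa using hΦ
    · rw [← mul_div_assoc, div_le_iff₀ (by positivity)]
      exact le_of_mul_le_mul_left (by nlinarith) h
  have dg : ∑ m, FF 1 (w m) (w m) ≤ Fintype.card ι := by
    have d1 : ∀ m, FF 1 (w m) (w m) ≤ ∑ k, ‖g m k‖ ^ 2 / l k ^ 2 := fun m => by
      have a3 := Finset.sum_mul_sq_le_sq_mul_sq Finset.univ (fun k => ‖g m k‖) fun k => ‖g m k‖ / l k
      rw [gn, one_mul] at a3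
      simp only [div_pow] at a3
      refine le_trans ?_ a3
      rw [sq, Finset.sum_mul_sum]
      refine Finset.sum_le_sum fun k _ => Finset.sum_le_sum fun j _ => ?_
      rw [Complex.mul_conj, Complex.ofReal_re, Complex.normSq_eq_norm_sq, ← mul_div_assoc,
        ← mul_div_assoc, ← sq, ← sq, ← nw, ← nw, ← mul_pow]
      exact pow_le_pow_left₀ (norm_nonneg _) (norm_inner_le_norm _ _) 2
    calc _ ≤ ∑ m, ∑ k, ‖g m k‖ ^ 2 / l k ^ 2 := Finset.sum_le_sum fun m _ => d1 m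
      _ = ∑ k, l k ^ 2 / l k ^ 2 := by
        rw [Finset.sum_comm]; simp only [← Finset.sum_div, ← l1]
      _ ≤ ∑ _k : ι, (1 : ℝ) := Finset.sum_le_sum fun k _ => div_self_le_one _
      _ = _ := by simp
  calc ((R : ℝ) - Fintype.card ι) / 32
      ≤ ∑ m, ∑ m', (FF 1 (w m) (w m') / 32 - if m = m' then FF 1 (w m) (w m) / 32 else 0) := by
        simp only [Finset.sum_sub_distrib, Finset.sum_ite_eq, Finset.mem_univ, if_true,
          ← Finset.sum_div, Φ1]
        linarith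
    _ ≤ ∑ m, ∑ m', ∑ s, (FF 1 (w m) (w m') - FF (M s) (w m) (w m')) :=
        Finset.sum_le_sum fun m _ => Finset.sum_le_sum fun m' _ => by
          split_ifs with h
          · subst h
            rw [sub_self]
            exact Finset.sum_nonneg fun s _ => sub_nonneg.2 (h1 s _ _)
          · rw [sub_zero]; exact h2 m m' h _ _ (wU m) (wU m')
    _ = ∑ s, (R - ∑ m, ∑ m', FF (M s) (w m) (w m')) := by
        rw [(Finset.sum_congr rfl fun m _ => Finset.sum_comm).trans Finset.sum_comm]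
        simp only [Finset.sum_sub_distrib, Φ1]
    _ ≤ ∑ _s : S, R * (1 - κ ^ 2 / C ^ 2) := Finset.sum_le_sum fun s _ => by linarith [Φs s]
    _ = _ := by simp

end Crest.Agent.KEP
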