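import Mathlib

/-! Universal C⋆-algebras given by generators and relations. -/

set_option autoImplicit false
open scoped ENNReal

namespace Crest.Agent.KEP

/-- ⋆-polynomials -/
abbrev Tm (X : Type) := FreeAlgebra ℂ (X × Bool)

/-- evaluation of a ⋆-polynomial -/
noncomputable def ev {X B : Type} [Ring B] [Algebra ℂ B] [Star B] (f : X → B) : Tm X →ₐ[ℂ] B :=
  FreeAlgebra.lift ℂ fun q => if q.2 then star (f q.1) else f q.1

noncomputable def vr {X : Type} (x : X) : Tm X := FreeAlgebra.ι ℂ (x, false)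
noncomputable def vs {X : Type} (x : X) : Tm X := FreeAlgebra.ι ℂ (x, true)

@[simp] lemma ev_vr {X B : Type} [Ring B] [Algebra ℂ B] [Star B] (f : X → B) (x : X) :
    ev f (vr x) = f x := by simp [ev, vr]
@[simp] lemma ev_vs {X B : Type} [Ring B] [Algebra ℂ B] [Star B] (f : X → B) (x : X) :
    ev f (vs x) = star (f x) := by simp [ev, vs]

variable {X : Type}

lemma exists_star (t : Tm X) : ∃ t' : Tm X, ∀ (B : Type) [CStarAlgebra B] (f : X → B),
    ev f t' = star (ev f t) := by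
  induction t using FreeAlgebra.induction with
  | grade0 c => exact ⟨algebraMap ℂ _ (star c), fun B _ f => by
      rw [AlgHom.commutes, AlgHom.commutes, algebraMap_star_comm]⟩
  | grade1 q =>
    obtain ⟨x, b⟩ := q
    cases b
    · exact ⟨vs x, fun B _ f => by simp [ev, vs]⟩
    · exact ⟨vr x, fun B _ f => by simp [ev, vr]⟩
  | mul a b ha hb =>
    obtain ⟨a', ha⟩ := ha; obtain ⟨b', hb⟩ := hb
    exact ⟨b' * a', fun B _ f => by simp [ha, hb]⟩
  | add a b ha hb =>
    obtain ⟨a', ha⟩ := ha; obtain ⟨b', hb⟩ := hb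
    exact ⟨a' + b', fun B _ f => by simp [ha, hb]⟩

lemma exists_bound (t : Tm X) : ∃ C : ℝ, ∀ (B : Type) [CStarAlgebra B] (f : X → B),
    (∀ x, ‖f x‖ ≤ 1) → ‖ev f t‖ ≤ C := by
  induction t using FreeAlgebra.induction with
  | grade0 c =>
    refine ⟨‖c‖, fun B _ f _ => ?_⟩
    rw [AlgHom.commutes, Algebra.algebraMap_eq_smul_one, norm_smul]
    exact mul_le_of_le_one_right (norm_nonneg _) (IsStarProjection.one B).norm_le
  | grade1 q =>
    obtain ⟨x, b⟩ := q
    refine ⟨1, fun B _ f h => ?_⟩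
    cases b <;> simpa [ev] using h x
  | mul a b ha hb =>
    obtain ⟨a', ha⟩ := ha; obtain ⟨b', hb⟩ := hb
    refine ⟨a' * b', fun B _ f h => ?_⟩
    rw [map_mul]
    exact (norm_mul_le _ _).trans
      (mul_le_mul (ha B f h) (hb B f h) (norm_nonneg _) ((norm_nonneg _).trans (ha B f h)))
  | add a b ha hb =>
    obtain ⟨a', ha⟩ := ha; obtain ⟨b', hb⟩ := hb
    refine ⟨a' + b', fun B _ f h => ?_⟩
    rw [map_add]
    exact (norm_add_le _ _).trans (add_le_add (ha B f h) (hb B f h))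

lemma ev_comp {A B : Type} [Ring A] [Algebra ℂ A] [Star A] [Ring B] [Algebra ℂ B] [Star B]
    (φ : A →⋆ₐ[ℂ] B) (f : X → A) (t : Tm X) : φ (ev f t) = ev (fun x => φ (f x)) t := by
  have : (φ : A →ₐ[ℂ] B).comp (ev f) = ev (fun x => φ (f x)) := by
    ext ⟨x, b⟩
    cases b <;> simp [ev, map_star]
  exact DFunLike.congr_fun this t

lemma exists_ext {A B : Type} [CStarAlgebra A] [CStarAlgebra B] (u : X → A) (f : X → B)
    (hu : (StarAlgebra.adjoin ℂ (Set.range u)).topologicalClosure = ⊤)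
    (h : ∀ t, ‖ev f t‖ ≤ ‖ev u t‖) : ∃ φ : A →⋆ₐ[ℂ] B, ∀ x, φ (u x) = f x := by
  have hd : DenseRange (ev u).toLinearMap := by
    intro a
    have ha : a ∈ (StarAlgebra.adjoin ℂ (Set.range u)).topologicalClosure := hu ▸ trivial
    refine closure_mono (fun y hy => ?_) ha
    induction hy using StarAlgebra.adjoin_induction with
    | mem y hy => obtain ⟨x, rfl⟩ := hy; exact ⟨vr x, ev_vr u x⟩
    | algebraMap c => exact ⟨algebraMap ℂ _ c, by simp⟩
    | add a b _ _ ha hb =>
      obtain ⟨a', rfl⟩ := ha; obtain ⟨b', rfl⟩ := hb; exact ⟨a' + b', by simp⟩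
    | mul a b _ _ ha hb =>
      obtain ⟨a', rfl⟩ := ha; obtain ⟨b', rfl⟩ := hb; exact ⟨a' * b', by simp⟩
    | star a _ ha =>
      obtain ⟨a', rfl⟩ := ha
      obtain ⟨t, ht⟩ := exists_star a'
      exact ⟨t, ht A u⟩
  have hn : ∃ C : ℝ, ∀ t, ‖(ev f).toLinearMap t‖ ≤ C * ‖(ev u).toLinearMap t‖ :=
    ⟨1, fun t => by simpa using h t⟩
  let W := (ev f).toLinearMap.extendOfNorm (ev u).toLinearMap
  have hW : ∀ t, W (ev u t) = ev f t := LinearMap.extendOfNorm_eq hd hn
  have hmul : ∀ a b, W (a * b) = W a * W b := fun a b => by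
    refine hd.induction_on₂ (p := fun a b => W (a * b) = W a * W b)
      (isClosed_eq (by fun_prop) (by fun_prop)) (fun s t => ?_) a b
    change W (ev u s * ev u t) = W (ev u s) * W (ev u t)
    rw [← map_mul, hW, hW, hW, map_mul]
  have hstar : ∀ a, W (star a) = star (W a) := fun a => by
    refine hd.induction_on a (isClosed_eq (by fun_prop) (by fun_prop)) fun t => ?_
    obtain ⟨t', ht⟩ := exists_star t
    change W (star (ev u t)) = star (W (ev u t))
    rw [← ht, hW, hW, ht]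
  have h1 : W 1 = 1 := by simpa using hW 1
  refine ⟨{ AlgHom.ofLinearMap W.toLinearMap h1 hmul with map_star' := hstar }, fun x => ?_⟩
  simpa using hW (vr x)

/-- a nontrivial model of a set of relations -/
structure Model (R : Set (Tm X)) : Type 1 where
  B : Type
  [i1 : CStarAlgebra B]
  [i2 : Nontrivial B]
  f : X → B
  rel : ∀ r ∈ R, ev f r = 0

instance {R : Set (Tm X)} (M : Model R) : CStarAlgebra M.B := M.i1
instance {R : Set (Tm X)} (M : Model R) : Nontrivial M.B := M.i2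

theorem exists_univ (R : Set (Tm X)) (M₀ : Model R)
    (hb : ∀ (B : Type) [CStarAlgebra B] (f : X → B), (∀ r ∈ R, ev f r = 0) → ∀ x, ‖f x‖ ≤ 1) :
    ∃ (A : Type) (_ : CStarAlgebra A) (u : X → A), (∀ r ∈ R, ev u r = 0) ∧
      (StarAlgebra.adjoin ℂ (Set.range u)).topologicalClosure = ⊤ ∧
      ∀ (B : Type) [CStarAlgebra B] (f : X → B), (∀ r ∈ R, ev f r = 0) →
        ∃ φ : A →⋆ₐ[ℂ] B, ∀ x, φ (u x) = f x := by
  have h1 : ∀ i : Tm X × ℕ, ∃ M : Model R, ∀ M' : Model R,
      ‖ev M'.f i.1‖ ≤ ‖ev M.f i.1‖ + 1 / ((i.2 : ℝ) + 1) := by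
    intro i
    obtain ⟨C, hC⟩ := exists_bound i.1
    have hbdd : BddAbove (Set.range fun M : Model R => ‖ev M.f i.1‖) :=
      ⟨C, by rintro _ ⟨M, rfl⟩; exact hC _ _ (hb _ _ M.rel)⟩
    obtain ⟨_, ⟨M, rfl⟩, hM⟩ := exists_lt_of_lt_csSup (s := Set.range fun M : Model R => ‖ev M.f i.1‖)
      ⟨_, M₀, rfl⟩ (sub_lt_self _ (Nat.one_div_pos_of_nat (n := i.2)))
    exact ⟨M, fun M' => (le_csSup hbdd ⟨M', rfl⟩).trans (by linarith)⟩
  choose F hF using h1
  let _ : CStarAlgebra (lp (fun i => (F i).B) ∞) := {}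
  let U : X → lp (fun i => (F i).B) ∞ := fun x =>
    ⟨fun i => (F i).f x, memℓp_infty ⟨1, by rintro _ ⟨i, rfl⟩; exact hb _ _ (F i).rel x⟩⟩
  let pr : ∀ i, lp (fun i => (F i).B) ∞ →⋆ₐ[ℂ] (F i).B := fun i =>
    { toFun := fun a => a i
      map_one' := rfl
      map_mul' := fun _ _ => rfl
      map_zero' := rfl
      map_add' := fun _ _ => rfl
      commutes' := fun _ => rfl
      map_star' := fun _ => rfl }
  have hU : ∀ t i, ev U t i = ev (F i).f t := fun t i => ev_comp (pr i) U t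
  let A := (StarAlgebra.adjoin ℂ (Set.range U)).topologicalClosure
  have : IsClosed (A : Set (lp (fun i => (F i).B) ∞)) := StarSubalgebra.isClosed_topologicalClosure _
  let u : X → A := fun x =>
    ⟨U x, StarSubalgebra.le_topologicalClosure _ (StarAlgebra.subset_adjoin ℂ _ ⟨x, rfl⟩)⟩
  have hu : ∀ t, (ev u t : lp (fun i => (F i).B) ∞) = ev U t := fun t => ev_comp A.subtype u t
  have hgen : (StarAlgebra.adjoin ℂ (Set.range u)).topologicalClosure = ⊤ := by
    rw [eq_top_iff]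
    rintro ⟨a, ha⟩ -
    have e : (Subtype.val : A → _) '' (StarAlgebra.adjoin ℂ (Set.range u) : Set A) =
        (StarAlgebra.adjoin ℂ (Set.range U) : Set _) := by
      have := StarAlgHom.map_adjoin A.subtype (Set.range u)
      rw [← Set.range_comp] at this
      exact congrArg SetLike.coe this
    change (⟨a, ha⟩ : A) ∈ closure (StarAlgebra.adjoin ℂ (Set.range u) : Set A)
    rw [Topology.IsInducing.subtypeVal.closure_eq_preimage_closure_image]
    exact (congrArg (fun S => a ∈ closure S) e).mpr ha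
  refine ⟨A, inferInstance, u, fun r hr => Subtype.ext ?_, hgen, fun B _ f hf =>
    exists_ext u f hgen fun t => ?_⟩
  · rw [hu]
    exact lp.ext (funext fun i => (hU r i).trans ((F i).rel r hr))
  · rcases subsingleton_or_nontrivial B with hB | hB
    · rw [Subsingleton.elim (ev f t) 0, norm_zero]; exact norm_nonneg _
    · refine le_of_forall_pos_le_add fun ε hε => ?_
      obtain ⟨n, hn⟩ := exists_nat_one_div_lt hε
      have h1 := hF (t, n) ⟨B, f, hf⟩
      have h2 := lp.norm_apply_le_norm (by simp) (ev U t) (t, n)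
      rw [hU, ← hu] at h2
      exact h1.trans (add_le_add h2 hn.le)

end Crest.Agent.KEP
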