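import Crest.Prelude.Def_CStarEmbedding
import Crest.Agent.NAI.St
import Crest.Agent.KEP.Univ
import Crest.Agent.KEP.L2
import Crest.Agent.KEP.Step
import Crest.Agent.KEP.Cpap
import Crest.Agent.KEP.Stop

/-! No embedding into the ultrapower. -/

set_option autoImplicit false
set_option linter.unusedSectionVars false
open scoped InnerProductSpace
open Filter Topology Crest.AnalysisR.CStarEmbedding

namespace Crest.Agent.KEP

lemma exists_norming {B : Type} [CStarAlgebra B] [Nontrivial B] (x : B) :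
    ∃ (R : NAI.Rep B) (z : R.K), ‖z‖ = 1 ∧ ‖R.π x z‖ = ‖x‖ := by
  let _ := CStarAlgebra.spectralOrder B
  have := CStarAlgebra.spectralOrderedRing B
  set a := star x * x
  set y := algebraMap ℝ B ‖a‖ - a with hy
  have hy1 : ¬IsUnit y := CStarAlgebra.norm_mem_spectrum_of_nonneg (star_mul_self_nonneg x)
  have hy2 : star y = y :=
    ((IsSelfAdjoint.algebraMap B (.all _)).sub (IsSelfAdjoint.star_mul_self x)).star_eq
  let S : Submodule ℂ B := LinearMap.range (LinearMap.mulRight ℂ y)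
  have h1 : 1 ≤ ‖(Submodule.Quotient.mk 1 : B ⧸ S)‖ := by
    by_contra hlt
    obtain ⟨m, hm, hm'⟩ := Submodule.Quotient.norm_mk_lt (Submodule.Quotient.mk 1 : B ⧸ S)
      (sub_pos.2 (not_le.1 hlt))
    rw [add_sub_cancel] at hm'
    obtain ⟨b, hb⟩ : 1 - m ∈ S := (Submodule.Quotient.eq S).1 hm.symm
    have h2 : (↑(Units.oneSub m hm')⁻¹ : B) * b * y = 1 := by
      rw [mul_assoc, show b * y = (Units.oneSub m hm' : B) from hb, Units.inv_mul]
    have h3 := congrArg star h2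
    rw [star_mul, hy2, star_one] at h3
    exact hy1 ⟨⟨y, _, h3, by rw [← left_inv_eq_right_inv h2 h3]; exact h2⟩, rfl⟩
  have h2 : ‖(Submodule.Quotient.mk 1 : B ⧸ S)‖ = 1 :=
    le_antisymm ((Submodule.Quotient.norm_mk_le S 1).trans NAI.norm_one_le') h1
  obtain ⟨g, hg, hg1⟩ := exists_dual_vector'' ℂ (Submodule.Quotient.mk 1 : B ⧸ S)
  have hs : NAI.IsSt (g.toLinearMap ∘ₗ S.mkQ) := NAI.isSt_of_norm_le _ (by simpa [h2] using hg1)
    fun b => (g.le_opNorm _).trans
      ((mul_le_of_le_one_left (norm_nonneg _) hg).trans (Submodule.Quotient.norm_mk_le S b))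
  obtain ⟨R, z, hz, h3, -⟩ := hs.gns
  refine ⟨R, z, hz, ?_⟩
  have h4 : (g.toLinearMap ∘ₗ S.mkQ) y = 0 := by
    have : S.mkQ y = 0 := (Submodule.Quotient.mk_eq_zero S).2 ⟨1, one_mul y⟩
    simp [this]
  rw [hy, map_sub, Algebra.algebraMap_eq_smul_one, ← Complex.coe_smul, map_smul, hs.1, h3,
    sub_eq_zero] at h4
  rw [← sq_eq_sq₀ (norm_nonneg _) (norm_nonneg _), NAI.norm_rep_sq, ← h4, sq,
    ← CStarRing.norm_star_mul_self]
  simp [a]

variable {p : ℕ} [Fact p.Prime]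

/-- the permutation representation -/
noncomputable def perm (K : Type) [NormedAddCommGroup K] [InnerProductSpace ℂ K] :
    Gam p →* (L2 (Y p) K →L[ℂ] L2 (Y p) K) where
  toFun g := T g.1 1
  map_one' := T_one
  map_mul' g h := by rw [T_mul, mul_one]; rfl

theorem stop (hp : 36 ≤ p) {O : Type} [CStarAlgebra O] (s : Fin 2 → O)
    (hs : ∀ i k, star (s i) * s k = if i = k then 1 else 0) (h1 : ∑ i, s i * star (s i) = 1)
    (hgen : (StarAlgebra.adjoin ℂ (Set.range s)).topologicalClosure = ⊤)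
    {H : Type} [NormedAddCommGroup H] [InnerProductSpace ℂ H] [CompleteSpace H]
    (ρ : O →⋆ₐ[ℂ] (H →L[ℂ] H)) (v₀ : H) (hV : Orthonormal ℂ fun μ => ρ (sw s μ) v₀)
    (R : NAI.Rep O) (D : Fin 4 × ZMod p → O) (c : ℝ) (hc : c = 1 / (4096 * p))
    (hD : ∀ r, ‖D r‖ ≤ 1 + c) : ¬∀ m, ∃ ξ ∈ Wd R.K (Lv m), ‖ξ‖ = 1 ∧
      ∀ i t, ‖T (xx i t).1 (R.π (D (i, t))) ξ - ξ‖ ≤ c := by
  intro h
  choose ξ hξ hξ1 hξ2 using h
  have hp' : (36 : ℝ) ≤ p := by exact_mod_cast hp
  have hc0 : 0 < c := by rw [hc]; positivity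
  have hc1 : c * p = 1 / 4096 := by rw [hc]; field_simp
  obtain ⟨ι, _, J, V, A, hV', hJ, hA⟩ := cpap s ρ v₀ hs h1 hgen hV D c hc0
  have hM : ∀ (g : Gam p) (v w : L2 (Y p) R.K), ⟪perm R.K g v, perm R.K g w⟫_ℂ = ⟪v, w⟫_ℂ :=
    fun g v w => by
      change ⟪T g.1 1 v, T g.1 1 w⟫_ℂ = _
      rw [inner_T, T_T, inv_mul_cancel, star_one, mul_one, T_one]; rfl
  have hinv : ∀ m i t, ∀ u ∈ Wd R.K (Lv m), perm R.K (xx (p := p) i t) u ∈ Wd R.K (Lv m) :=
    fun m i t u hu => T_mem _ (fun y hy => (Lv_xx m i t).2 hy) 1 hu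
  have hin : ∀ (g : Equiv.Perm (Y p)) m i j, ⟪T 1 (R.π (J i)) (ξ m), T g 1 (T 1 (R.π (J j)) (ξ m))⟫_ℂ =
      ⟪ξ m, T g (R.π (star (J i) * J j)) (ξ m)⟫_ℂ := fun g m i j => by
    rw [inner_T, T_T, T_T]; simp [map_star]
  have lt : ∀ m m' : ℕ, m < m' → ∀ a a' : ι → L2 (Y p) R.K, (∀ k, a k ∈ Wd R.K (Lv m)) →
      (∀ k, a' k ∈ Wd R.K (Lv m')) → FF 1 a a' / 32 ≤
        ∑ r : Fin 4 × ZMod p, (FF 1 a a' - FF (perm R.K (xx r.1 r.2)) a a') :=
    fun m m' h a a' ha ha' => (pair_aux (tdata hp) (perm R.K) hM a a').2 _ _ (hinv m) (hinv m')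
      (bb m') (bb_mem m') (fun t u hu => bb_fix h t hu) (fun u hu => bb_avg m' hu) ha ha'
  have key := core (2 * Fintype.card ι + 1) (fun r : Fin 4 × ZMod p => perm R.K (xx r.1 r.2))
    (fun m => Wd R.K (Lv m)) (fun r m => hinv m r.1 r.2)
    (fun m m' h u hu u' hu' => Wd_orth (Lv_disj fun h' => h (Fin.ext h')) hu hu')
    (fun r a a' => (pair_aux (tdata hp) (perm R.K) hM a a').1 _)
    (fun m m' h a a' ha ha' => by
      rcases lt_or_gt_of_ne h with h | h
      · exact lt m m' h a a' ha ha'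
      · simp only [FF_symm _ a a']; exact lt m' m h a' a ha' ha)
    V hV' A (1 + 2 * c) (1 - 2 * c) (by positivity) (by nlinarith)
    (fun r => by linarith [(hA r).1, hD r]) (fun m i => T 1 (R.π (J i)) (ξ m))
    (fun m i => T_mem 1 (fun y hy => hy) _ (hξ m)) (fun m => by
      have : ∑ i, ⟪T 1 (R.π (J i)) (ξ m), T 1 (R.π (J i)) (ξ m)⟫_ℂ = ⟪ξ m, ξ m⟫_ℂ := by
        have := hin 1 m
        simp only [T_one, one_apply_eq_self] at this
        simp only [this, ← inner_sum, ← _root_.sum_apply, ← map_sum, hJ, map_one, T_one,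
          one_apply_eq_self]
      simp only [inner_self_eq_norm_sq_to_K, hξ1, RCLike.ofReal_one, one_pow] at this
      have h9 := congrArg Complex.re this
      simpa [← Complex.ofReal_pow] using h9) (fun r m => by
      change _ ≤ (∑ i, ∑ j, _ * ⟪_, T (xx r.1 r.2).1 1 _⟫_ℂ).re
      simp only [hin, ← inner_smul_right, ← _root_.smul_apply, ← map_smul, ← inner_sum,
        ← _root_.sum_apply, ← map_sum]
      set E := ∑ i, ∑ j, ⟪V i, A r (V j)⟫_ℂ • (star (J i) * J j)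
      have e : T (xx r.1 r.2).1 (R.π E) (ξ m) = ξ m + ((T (xx r.1 r.2).1 (R.π (D r)) (ξ m) - ξ m) +
          T (xx r.1 r.2).1 (R.π (E - D r)) (ξ m)) := by simp
      have h2 := norm_T_apply (xx r.1 r.2).1 (R.π (E - D r)) (ξ m)
      have h3 := NonUnitalStarAlgHom.norm_apply_le R.π (E - D r)
      rw [e, inner_add_right, inner_self_eq_norm_sq_to_K, Complex.add_re]
      set η := (T (xx r.1 r.2).1 (R.π (D r)) (ξ m) - ξ m) + T (xx r.1 r.2).1 (R.π (E - D r)) (ξ m)
      have h4 : ‖η‖ ≤ 2 * c := (norm_add_le _ _).trans (by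
        rw [hξ1] at h2; linarith [hξ2 m r.1 r.2, (hA r).2])
      have h5 := (abs_le.1 ((Complex.abs_re_le_norm _).trans (norm_inner_le_norm (𝕜 := ℂ) (ξ m) η))).1
      rw [hξ1] at h5 ⊢
      simp only [RCLike.ofReal_one, one_pow, Complex.one_re]
      linarith)
  have h2 : 1 - (1 - 2 * c) ^ 2 / (1 + 2 * c) ^ 2 ≤ 8 * c := by
    rw [sub_le_comm, le_div_iff₀ (by positivity)]
    nlinarith [mul_pos hc0 hc0, mul_pos (mul_pos hc0 hc0) hc0]
  simp only [Fintype.card_prod, Fintype.card_fin, ZMod.card] at key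
  push_cast at key
  have h3 : (0 : ℝ) ≤ Fintype.card ι := Nat.cast_nonneg _
  have h4 := mul_le_mul_of_nonneg_left h2 (by positivity : 0 ≤ 4 * (p : ℝ) * (2 * Fintype.card ι + 1))
  have h5 : 4 * (p : ℝ) * (2 * Fintype.card ι + 1) * (8 * c) = (2 * Fintype.card ι + 1) / 128 := by
    linear_combination (32 * (2 * (Fintype.card ι : ℝ) + 1)) * hc1
  nlinarith

lemma norm_le_one_of {B : Type} [CStarAlgebra B] {a : B} (h : star a * a = 1) : ‖a‖ ≤ 1 := by
  have := CStarRing.norm_star_mul_self (x := a)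
  rw [h] at this
  nlinarith [NAI.norm_one_le' (B := B), norm_nonneg a]

theorem no_emb (hp : 36 ≤ p) {A : Type} [CStarAlgebra A] (u : Gam p →* unitary A)
    (hA : IsFullGroupCStar A u) {O : Type} [CStarAlgebra O] [Nontrivial O] (s : Fin 2 → O)
    (hs : ∀ i k, star (s i) * s k = if i = k then 1 else 0) (h1 : ∑ i, s i * star (s i) = 1)
    (hgen : (StarAlgebra.adjoin ℂ (Set.range s)).topologicalClosure = ⊤)
    {H : Type} [NormedAddCommGroup H] [InnerProductSpace ℂ H] [CompleteSpace H]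
    (ρ : O →⋆ₐ[ℂ] (H →L[ℂ] H)) (v₀ : H) (hV : Orthonormal ℂ fun μ => ρ (sw s μ) v₀)
    (ω : Ultrafilter ℕ) : ¬∃ φ : ℕ → A → O, IsUltrapowerEmbedding ω A O φ := by
  rintro ⟨φ, hb, hadd, hsm, hmul, hst, hone, hn⟩
  have hp' : (36 : ℝ) ≤ p := by exact_mod_cast hp
  set c : ℝ := 1 / (4096 * p) with hc
  have hc0 : 0 < c := by positivity
  have hc1 : c ≤ 1 / 4 := one_div_le_one_div_of_le (by norm_num) (by linarith)
  let χ : AddChar (ZMod p) ℂ := ZMod.stdAddChar
  have hχ : χ ≠ 1 := fun h => one_ne_zero (ZMod.injective_stdAddChar (N := p)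
    (show χ 1 = χ 0 by rw [h]; rfl))
  let cf : Fin 4 × ZMod p → ℂ := fun r => χ (-if r.1 = 3 then r.2 else 0)
  let U : Gam p → A := fun g => u g
  have hU : ∀ g, star (U g) * U g = 1 := fun g => (u g).2.1
  have hN : 8 * (p : ℝ) ≤ ‖∑ r, (1 + cf r • U (xx r.1 r.2))‖ := by
    have hu : ∀ g : Gam p, perm ℂ g ∈ unitary (L2 (Y p) ℂ →L[ℂ] L2 (Y p) ℂ) := fun g => by
      have : star (perm ℂ g) = perm ℂ g⁻¹ := ((ContinuousLinearMap.eq_adjoint_iff _ _).2
        fun v w => by simpa [perm] using inner_T (g⁻¹).1 (1 : ℂ →L[ℂ] ℂ) v w).symm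
      constructor <;> rw [this, ← map_mul] <;> simp
    obtain ⟨ψ, hψ⟩ := hA.2 _ ((perm ℂ).codRestrict _ hu)
    have e : ψ (∑ r, (1 + cf r • U (xx r.1 r.2))) (vec χ⁻¹ 1) = ((8 * p : ℝ) : ℂ) • vec χ⁻¹ 1 := by
      have : ∀ r : Fin 4 × ZMod p, ψ (1 + cf r • U (xx r.1 r.2)) (vec χ⁻¹ 1) = (2 : ℂ) • vec χ⁻¹ 1 := by
        intro r
        rw [map_add, map_one, map_smul, hψ]
        change vec χ⁻¹ (1 : ℂ) + cf r • T (xx r.1 r.2).1 1 (vec χ⁻¹ (1 : ℂ)) = _
        rw [T_vec _ _ _ (xx_y0 r.1 r.2), map_smul, smul_smul, AddChar.inv_apply,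
          ← χ.map_add_eq_mul, add_neg_cancel, two_smul]
        simp
      rw [map_sum, _root_.sum_apply]
      simp only [this, ← Finset.sum_smul]
      simp; congr 1; ring
    have h2 := NAI.norm_rep_le ψ (∑ r, (1 + cf r • U (xx r.1 r.2))) (vec χ⁻¹ 1)
    have h3 := le_norm_vec χ⁻¹ (1 : ℂ)
    rw [e, norm_smul, Complex.norm_real, Real.norm_eq_abs, abs_of_nonneg (by positivity)] at h2
    exact le_of_mul_le_mul_right h2 (by rw [norm_one] at h3; linarith)
  have hsum : ∀ (S : Finset (Fin 4 × ZMod p)), Tendsto (fun n => ‖φ n (∑ r ∈ S,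
      (1 + cf r • U (xx r.1 r.2))) - ∑ r ∈ S, (1 + cf r • φ n (U (xx r.1 r.2)))‖) ω (𝓝 0) := by
    intro S
    induction S using Finset.induction_on with
    | empty => simpa using hn 0
    | insert r S hr ih =>
      refine squeeze_zero (fun _ => norm_nonneg _) (fun n => ?_) (by
        simpa using ((((hadd (1 + cf r • U (xx r.1 r.2)) (∑ r ∈ S, (1 + cf r • U (xx r.1 r.2)))).add
          (hadd 1 (cf r • U (xx r.1 r.2)))).add hone).add (hsm (cf r) (U (xx r.1 r.2)))).add ih)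
      rw [Finset.sum_insert hr, Finset.sum_insert hr]
      refine le_trans (le_of_eq ?_) ((norm_add_le _ _).trans (add_le_add ((norm_add_le _ _).trans
        (add_le_add ((norm_add_le _ _).trans (add_le_add (norm_add_le _ _) le_rfl)) le_rfl)) le_rfl))
      congr 1; abel
  choose R z hz hz' using fun n => exists_norming (∑ r, (1 + cf r • φ n (U (xx r.1 r.2))))
  have hD : ∀ δ > 0, ∀ᶠ n in (ω : Filter ℕ), ∀ r : Fin 4 × ZMod p, ‖φ n (U (xx r.1 r.2))‖ ≤ 1 + δ :=
    fun δ hδ => eventually_all.2 fun r => ((hn _).eventually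
      (gt_mem_nhds (lt_of_le_of_lt (norm_le_one_of (hU _)) (lt_add_of_pos_right 1 hδ)))).mono
        fun n h => h.le
  let Good : ℕ → ℕ → Prop := fun n m => ∃ ξ ∈ Wd (R n).K (Lv m), ‖ξ‖ = 1 ∧
    ∀ i t, ‖T (xx i t).1 ((R n).π (φ n (U (xx i t)))) ξ - ξ‖ ≤ c
  have start : ∀ᶠ n in (ω : Filter ℕ), Good n 0 := by
    set δ := (c / p) ^ 2 / (6 + 16 * p) with hδ
    have hδ0 : 0 < δ := by positivity
    have hδ1 : δ * (6 + 16 * p) = (c / p) ^ 2 := by rw [hδ]; field_simp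
    have hδ2 : (c / p) ^ 2 ≤ 1 := pow_le_one₀ (by positivity) (div_le_one_of_le₀ (by linarith) (by linarith))
    have h2 := (tendsto_close (W := fun _ => O) (hn _) ((hsum Finset.univ).congr fun n =>
      norm_sub_rev _ _)).eventually (lt_mem_nhds (lt_of_lt_of_le (sub_lt_self _ hδ0) hN))
    filter_upwards [h2, hD δ hδ0] with n h2 h3
    set v : Fin 4 × ZMod p → (R n).K := fun r => cf r • (R n).π (φ n (U (xx r.1 r.2))) (z n)
    have hv : ∀ r, ‖v r‖ ≤ 1 + δ := fun r => by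
      have := NAI.norm_rep_le (R n).π (φ n (U (xx r.1 r.2))) (z n)
      rw [hz, mul_one] at this
      rw [norm_smul, AddChar.norm_apply, one_mul]
      exact this.trans (h3 r)
    have h4 : ∀ r, ‖v r - z n‖ ≤ c / p := fun r => by
      rw [← hz', map_sum, _root_.sum_apply, ← Finset.add_sum_erase _ _ (Finset.mem_univ r)] at h2
      have e : ∀ r, (R n).π (1 + cf r • φ n (U (xx r.1 r.2))) (z n) = v r + z n := fun r => by
        simp [v, add_comm]
      simp only [e] at h2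
      have h5 : ‖∑ r' ∈ Finset.univ.erase r, (v r' + z n)‖ ≤ (4 * p - 1) * (2 + δ) := by
        refine (norm_sum_le_of_le _ (n := fun _ => 2 + δ) fun r' _ =>
          (norm_add_le _ _).trans (by linarith [hv r', hz n])).trans (le_of_eq ?_)
        rw [Finset.sum_const, Finset.card_erase_of_mem (Finset.mem_univ r), nsmul_eq_mul,
          Nat.cast_pred Finset.univ_nonempty.card_pos]
        simp
      have h6 : 2 - 4 * p * δ ≤ ‖v r + z n‖ := by
        have := norm_add_le (v r + z n) (∑ r' ∈ Finset.univ.erase r, (v r' + z n))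
        linarith
      have h7 := parallelogram_law_with_norm ℂ (v r) (z n)
      have h8 := pow_le_pow_left₀ (by nlinarith) h6 2
      have h9 := pow_le_pow_left₀ (norm_nonneg _) (hv r) 2
      rw [hz] at h7
      refine le_of_sq_le_sq ?_ (by positivity)
      nlinarith [sq_nonneg (p * δ)]
    have h5 := le_norm_vec χ (z n)
    rw [hz] at h5
    have h6 : 0 < ‖vec χ (z n)‖ := by linarith
    refine ⟨((‖vec χ (z n)‖⁻¹ : ℝ) : ℂ) • vec χ (z n), Submodule.smul_mem _ _ (vec_mem hχ _), ?_,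
      fun i t => ?_⟩
    · rw [norm_smul, Complex.norm_real, norm_inv, norm_norm, inv_mul_cancel₀ h6.ne']
    · rw [map_smul, ← smul_sub, norm_smul, Complex.norm_real, norm_inv, norm_norm,
        inv_mul_le_iff₀ h6, T_vec _ _ _ (xx_y0 i t), ← map_sub]
      refine (norm_vec_le _ _).trans ?_
      have := (le_div_iff₀' (by linarith)).1 (h4 (i, t))
      nlinarith
  have hstop : ∀ᶠ n in (ω : Filter ℕ), ¬∀ m, Good n m := (hD c hc0).mono fun n h =>
    stop hp s hs h1 hgen ρ v₀ hV (R n) (fun r => φ n (U (xx r.1 r.2))) c hc h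
  have hm : ∀ n, ∃ m, Good n 0 → (¬∀ m, Good n m) → Good n m ∧ ¬Good n (m + 1) := fun n => by
    by_contra hcon
    push Not at hcon
    exact (hcon 0).2.1.elim fun m hm => hm (Nat.rec (hcon 0).1 (fun k hk => (hcon k).2.2 hk) m)
  choose m hm using hm
  have hξ : ∀ n, ∃ ξ ∈ Wd (R n).K (Lv (m n)), ‖ξ‖ ≤ 1 ∧ (Good n (m n) → ‖ξ‖ = 1 ∧
      ∀ i t, ‖T (xx i t).1 ((R n).π (φ n (U (xx i t)))) ξ - ξ‖ ≤ c) := fun n => by
    by_cases h : Good n (m n)
    · obtain ⟨ξ, h1, h2, h3⟩ := h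
      exact ⟨ξ, h1, h2.le, fun _ => ⟨h2, h3⟩⟩
    · exact ⟨0, zero_mem _, by simp, fun h' => absurd h' h⟩
  choose ξ hξ hξ1 hξ2 using hξ
  have hT : ∀ n (e : Equiv.Perm (Y p)) (d : O), ‖T e ((R n).π d)‖ ≤ ‖d‖ := fun n e d =>
    (norm_T_le _ _).trans (NonUnitalStarAlgHom.norm_apply_le _ d)
  have key := step_abs (W := fun n => L2 (Y p) (R n).K) ω (tdata hp) tau transfer
    (fun n g => T g.1 ((R n).π (φ n (U g))))
    (fun g => (hb (U g)).imp fun C h n => (hT _ _ _).trans (h n))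
    (fun g h => squeeze_zero (fun _ => norm_nonneg _) (fun n => by
      rw [T_mul, ← map_mul, Subgroup.coe_mul, ← map_sub, ← map_sub, norm_sub_rev]
      simp only [U, map_mul, Submonoid.coe_mul]
      exact hT _ _ _) (hmul (U g) (U h)))
    (fun g => ⟨fun n => ‖star (φ n (U g)) * φ n (U g) - 1‖, by
      obtain ⟨C, hC⟩ := hb (U g)
      refine squeeze_zero (fun _ => norm_nonneg _) (fun n => ?_) (by
        simpa using (((hst (U g)).mul_const C).add (hmul (star (U g)) (U g))).add hone)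
      have e : star (φ n (U g)) * φ n (U g) - 1 = -((φ n (star (U g)) - star (φ n (U g))) * φ n (U g)) +
          -(φ n (star (U g) * U g) - φ n (star (U g)) * φ n (U g)) + (φ n 1 - 1) := by
        rw [hU]; noncomm_ring
      rw [e]
      refine norm_add₃_le.trans ?_
      rw [norm_neg, norm_neg]
      gcongr
      exact (norm_mul_le _ _).trans (mul_le_mul_of_nonneg_left (hC n) (norm_nonneg _)), fun n v w => by
      have e : T 1 ((R n).π (star (φ n (U g)) * φ n (U g) - 1)) w =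
          T 1 (star ((R n).π (φ n (U g))) * (R n).π (φ n (U g))) w - w := by
        simp [map_star, T_one]
      rw [inner_T, T_T, inv_mul_cancel, ← inner_sub_right, ← e, mul_right_comm, mul_comm]
      exact (norm_inner_le_norm _ _).trans (mul_le_mul_of_nonneg_left
        (ContinuousLinearMap.le_of_opNorm_le _ (hT _ _ _) _) (norm_nonneg _))⟩)
    (squeeze_zero (fun _ => norm_nonneg _) (fun n => by
      have := hT n 1 (φ n 1 - 1)
      simpa [U, T_one] using this) hone)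
    ξ hξ1 ((start.and hstop).mono fun n h => ⟨(hξ2 n (hm n h.1 h.2).1).1, fun i t =>
      ((hξ2 n (hm n h.1 h.2).1).2 i t).trans hc1⟩)
    (fun n j => Wd _ (Lq (m n + 1) j)) (fun n => Wd _ (Lv (m n + 1)))
    (fun n j h hh => T_mem (xx 3 j * tau * h) (fun y hy => Lq_step (y := h.1 y) _ j
      ((Lv_HH _ hh).2 hy)) _ (hξ n))
    (fun n j j' h u hu u' hu' => Wd_orth (Lq_disj _ h) hu hu')
    (fun n j ξ h => Wd_mono (fun y hy => hy.1) h) c hc0
  obtain ⟨n, h, h'⟩ := ((start.and hstop).and key).exists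
  exact (hm n h.1 h.2).2 h'

end Crest.Agent.KEP
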