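import Crest.Agent.KEP.Gap

/-! The group and its action on a tree. -/

set_option autoImplicit false
set_option linter.unusedSectionVars false

namespace Crest.Agent.KEP

variable {p : ℕ} [Fact p.Prime]

/-- vertices -/
abbrev Y (p : ℕ) := ℤ × (ℤ → ZMod p)

/-- a one-parameter family of permutations -/
def mkP {α : Type} (F : ZMod p → α → α) (h0 : ∀ y, F 0 y = y)
    (h : ∀ s t y, F s (F t y) = F (s + t) y) (t : ZMod p) : Equiv.Perm α where
  toFun := F t
  invFun := F (-t)
  left_inv y := by rw [h, neg_add_cancel, h0]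
  right_inv y := by rw [h, add_neg_cancel, h0]

def Xf (r i : ℤ) (t : ZMod p) (y : Y p) : Y p :=
  (y.1, fun k => y.2 k + if k < y.1 ∧ (k - r - i) % 3 = 0 then t * y.2 (k - r) else 0)

def Bf (k : ℤ) (t : ZMod p) (y : Y p) : Y p :=
  (y.1, fun j => y.2 j + if j = k ∧ k < y.1 then t else 0)

def X (r : ℤ) (hr : r % 3 ≠ 0) (i : ℤ) : ZMod p → Equiv.Perm (Y p) :=
  mkP (Xf r i) (fun y => by simp [Xf]) fun s t y => by
    refine Prod.ext rfl (funext fun k => ?_)
    simp only [Xf]
    split_ifs <;> first | omega | ring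

def B (k : ℤ) : ZMod p → Equiv.Perm (Y p) :=
  mkP (Bf k) (fun y => by simp [Bf]) fun s t y => by
    refine Prod.ext rfl (funext fun j => ?_)
    simp only [Bf]
    split_ifs <;> ring

def Cc : ZMod p → Equiv.Perm (Y p) :=
  mkP (fun t y => Bf (y.1 - 1) t y) (fun y => by simp [Bf]) fun s t y => by
    refine Prod.ext rfl (funext fun j => ?_)
    simp only [Bf]
    split_ifs <;> ring

def Tau : Equiv.Perm (Y p) where
  toFun y := (y.1 + 1, fun j => y.2 (j - 1))
  invFun y := (y.1 - 1, fun j => y.2 (j + 1))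
  left_inv y := by simp
  right_inv y := by simp

abbrev X1 (i : ℤ) : ZMod p → Equiv.Perm (Y p) := X 1 (by decide) i
abbrev X2 (i : ℤ) : ZMod p → Equiv.Perm (Y p) := X 2 (by decide) i

lemma X_apply (r : ℤ) (hr : r % 3 ≠ 0) (i : ℤ) (t : ZMod p) (y : Y p) : X r hr i t y = Xf r i t y := rfl
lemma B_apply (k : ℤ) (t : ZMod p) (y : Y p) : B k t y = Bf k t y := rfl
lemma Cc_apply (t : ZMod p) (y : Y p) : Cc t y = Bf (y.1 - 1) t y := rfl
lemma Tau_apply (y : Y p) : Tau y = (y.1 + 1, fun j => y.2 (j - 1)) := rfl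

macro "perm_tac" : tactic => `(tactic| (
  refine Equiv.ext fun y => Prod.ext rfl (funext fun k => ?_)
  simp only [Equiv.Perm.mul_apply, X_apply, B_apply, Cc_apply, Tau_apply, Xf, Bf, Equiv.Perm.one_apply]
  split_ifs <;> first | omega | ring_nf))

lemma X_one (r : ℤ) (hr : r % 3 ≠ 0) (i : ℤ) : OneP (X (p := p) r hr i) := fun s t => by perm_tac
lemma B_one (k : ℤ) : OneP (B (p := p) k) := fun s t => by perm_tac
lemma Cc_one : OneP (Cc (p := p)) := fun s t => by perm_tac

lemma X_per (i j : ℤ) (h : (i - j) % 3 = 0) (t : ZMod p) : X1 i t = X1 j t := by perm_tac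

lemma XX (i : ℤ) (s t : ZMod p) : X1 (i + 1) s * X1 i t = X1 i t * X1 (i + 1) s * X2 i (s * t) := by
  perm_tac
lemma XX1 (i : ℤ) (s t : ZMod p) : X2 i s * X1 i t = X1 i t * X2 i s := by perm_tac
lemma XX2 (i : ℤ) (s t : ZMod p) : X2 i s * X1 (i + 1) t = X1 (i + 1) t * X2 i s := by perm_tac
lemma XB (i k : ℤ) (h : (k - i) % 3 = 0) (s t : ZMod p) :
    X1 i s * B k t = B k t * X1 i s * B (k + 1) (s * t) := by perm_tac
lemma XB' (i k : ℤ) (h : (k - i) % 3 ≠ 0) (s t : ZMod p) : X1 i s * B k t = B k t * X1 i s := by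
  perm_tac
lemma BB (j k : ℤ) (s t : ZMod p) : B j s * B k t = B k t * B j s := by perm_tac
lemma TX (i : ℤ) (t : ZMod p) : Tau * X1 i t = X1 (i + 1) t * Tau := by perm_tac
lemma TB (k : ℤ) (t : ZMod p) : Tau * B k t = B (k + 1) t * Tau := by perm_tac
lemma CX (r : ℤ) (hr : r % 3 ≠ 0) (h0 : 0 < r) (i : ℤ) (s t : ZMod p) :
    Cc s * X r hr i t = X r hr i t * Cc s := by perm_tac
lemma CB (k : ℤ) (s t : ZMod p) : Cc s * B k t = B k t * Cc s := by perm_tac
lemma CT (s : ZMod p) : Cc s * Tau = Tau * Cc s := by perm_tac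

variable (p) in
def gens : Option (Fin 3 × ℤ × ZMod p) → Equiv.Perm (Y p)
  | none => Tau
  | some q => ![X1, X2, B] q.1 q.2.1 q.2.2

variable (p) in
/-- the group -/
def Gam : Subgroup (Equiv.Perm (Y p)) := Subgroup.closure (Set.range (gens p))

instance : Countable (Gam p) := by
  rw [Gam, ← FreeGroup.range_lift_eq_closure]
  exact (Set.countable_range _).to_subtype

def x1 (i : ℤ) (t : ZMod p) : Gam p := ⟨X1 i t, Subgroup.subset_closure ⟨some (0, i, t), rfl⟩⟩
def x2 (i : ℤ) (t : ZMod p) : Gam p := ⟨X2 i t, Subgroup.subset_closure ⟨some (1, i, t), rfl⟩⟩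
def bb (k : ℤ) (t : ZMod p) : Gam p := ⟨B k t, Subgroup.subset_closure ⟨some (2, k, t), rfl⟩⟩
def tau : Gam p := ⟨Tau, Subgroup.subset_closure ⟨none, rfl⟩⟩

lemma Cc_comm (g : Gam p) (s : ZMod p) : Cc s * g.1 = g.1 * Cc s := by
  obtain ⟨g, hg⟩ := g
  change Commute (Cc s) g
  induction hg using Subgroup.closure_induction with
  | mem g hg =>
    obtain ⟨q, rfl⟩ := hg
    rcases q with _ | ⟨a, i, t⟩
    · exact CT s
    · fin_cases a
      · exact CX 1 (by decide) one_pos i s t
      · exact CX 2 (by decide) two_pos i s t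
      · exact CB i s t
  | one => exact Commute.one_right _
  | mul g h _ _ hg hh => exact hg.mul_right hh
  | inv g _ hg => exact hg.inv_right

def xx : Fin 4 → ZMod p → Gam p := ![x1 0, x1 1, x1 2, bb 0]

lemma heisX (i : ℤ) : Heis (x1 (p := p) i) (x1 (i + 1)) :=
  ⟨x2 i, fun s t => Subtype.ext (X_one 2 (by decide) _ s t), fun s t => Subtype.ext (XX i s t),
    fun s t => Subtype.ext (XX1 i s t), fun s t => Subtype.ext (XX2 i s t)⟩

lemma heisB (i : ℤ) (h : (0 - i) % 3 ≠ 0) : Heis (bb (p := p) 0) (x1 i) :=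
  ⟨fun _ => 1, fun s t => by simp, fun s t => by rw [mul_one]; exact Subtype.ext (XB' i 0 h s t),
    fun s t => by simp, fun s t => by simp⟩

lemma tdata (hp : 36 ≤ p) : TData (xx (p := p)) := by
  have h20 : Heis (x1 (p := p) 2) (x1 0) := by
    have := heisX (p := p) 2
    rwa [show x1 (p := p) (2 + 1) = x1 0 from funext fun t => Subtype.ext (X_per _ _ (by decide) t)]
      at this
  have h30 : Heis (bb (p := p) 0) (x1 0) :=
    ⟨bb 1, fun s t => Subtype.ext (B_one _ s t), fun s t => Subtype.ext (XB 0 0 (by decide) s t),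
      fun s t => Subtype.ext (BB 1 0 s t), fun s t => Subtype.ext (XB' 0 1 (by decide) t s).symm⟩
  refine ⟨hp, fun i => ?_, fun i j hij => ?_⟩
  · fin_cases i
    · exact fun s t => Subtype.ext (X_one 1 (by decide) _ s t)
    · exact fun s t => Subtype.ext (X_one 1 (by decide) _ s t)
    · exact fun s t => Subtype.ext (X_one 1 (by decide) _ s t)
    · exact fun s t => Subtype.ext (B_one _ s t)
  · fin_cases i <;> fin_cases j <;> first
      | exact absurd rfl hij
      | exact Or.inl (heisX 0) | exact Or.inr (heisX 0)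
      | exact Or.inl (heisX 1) | exact Or.inr (heisX 1)
      | exact Or.inl h20 | exact Or.inr h20 | exact Or.inl h30 | exact Or.inr h30
      | exact Or.inl (heisB 1 (by decide)) | exact Or.inr (heisB 1 (by decide))
      | exact Or.inl (heisB 2 (by decide)) | exact Or.inr (heisB 2 (by decide))

variable (p) in
/-- the subgroup with property (T) -/
def HH : Subgroup (Gam p) := Subgroup.closure (Set.range fun s : Fin 4 × ZMod p => xx s.1 s.2)

lemma xx_mem (i : Fin 4) (t : ZMod p) : xx i t ∈ HH p := Subgroup.subset_closure ⟨(i, t), rfl⟩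

lemma bb_mem (k : ℕ) (t : ZMod p) : bb k t ∈ HH p := by
  induction k generalizing t with
  | zero => exact xx_mem 3 t
  | succ k ih =>
    have hx : x1 k t ∈ HH p := by
      rcases (by omega : ((k : ℤ) - 0) % 3 = 0 ∨ ((k : ℤ) - 1) % 3 = 0 ∨ ((k : ℤ) - 2) % 3 = 0) with
        h | h | h
      · rw [show x1 (k : ℤ) t = xx 0 t from Subtype.ext (X_per _ _ h t)]; exact xx_mem _ _
      · rw [show x1 (k : ℤ) t = xx 1 t from Subtype.ext (X_per _ _ h t)]; exact xx_mem _ _
      · rw [show x1 (k : ℤ) t = xx 2 t from Subtype.ext (X_per _ _ h t)]; exact xx_mem _ _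
    have h : x1 k t * bb k 1 = bb k 1 * x1 k t * bb ((k + 1 : ℕ) : ℤ) t :=
      Subtype.ext (by
        have := XB (p := p) k k (by simp) t 1
        rw [mul_one] at this
        push_cast
        exact this)
    have := (HH p).mul_mem ((HH p).inv_mem ((HH p).mul_mem (ih 1) hx)) ((HH p).mul_mem hx (ih 1))
    rwa [h, inv_mul_cancel_left] at this

lemma transfer (i : Fin 4) (hi : i ≠ 3) (t j : ZMod p) : ∃ i' r,
    xx i t * (bb 0 j * tau) = bb 0 j * tau * (xx i' t * xx 3 r) := by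
  fin_cases i
  · refine ⟨2, t * j, Subtype.ext ?_⟩
    change X1 0 t * (B 0 j * Tau) = B 0 j * Tau * (X1 2 t * B 0 (t * j))
    perm_tac
  · refine ⟨0, 0, Subtype.ext ?_⟩
    change X1 1 t * (B 0 j * Tau) = B 0 j * Tau * (X1 0 t * B 0 0)
    perm_tac
  · refine ⟨1, 0, Subtype.ext ?_⟩
    change X1 2 t * (B 0 j * Tau) = B 0 j * Tau * (X1 1 t * B 0 0)
    perm_tac
  · exact absurd rfl hi

/-- level sets -/
def Lv (m : ℕ) : Set (Y p) := {y | y.1 = m + 1 ∧ ∀ k < 0, y.2 k = 0}
def Lq (m : ℕ) (j : ZMod p) : Set (Y p) := {y | y ∈ Lv m ∧ y.2 0 = j}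

lemma Lv_xx (m : ℕ) (i : Fin 4) (t : ZMod p) {y : Y p} : (xx i t).1 y ∈ Lv m ↔ y ∈ Lv m := by
  have key : ∀ (i : Fin 4) (t : ZMod p) {y : Y p}, y ∈ Lv m → (xx i t).1 y ∈ Lv m := by
    intro i t y hy
    have hX : ∀ a, X1 a t y ∈ Lv m := fun a => ⟨hy.1, fun k hk => by
      simp [X_apply, Xf, hy.2 k hk, hy.2 (k - 1) (by omega)]⟩
    fin_cases i
    · exact hX _
    · exact hX _
    · exact hX _
    · exact ⟨hy.1, fun k hk => by
        change (B 0 t y).2 k = 0
        simp [B_apply, Bf, hy.2 k hk, hk.ne]⟩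
  refine ⟨fun h => ?_, key i t⟩
  have h1 : OneP (xx (p := p) i) := by
    fin_cases i
    · exact fun s t => Subtype.ext (X_one 1 (by decide) _ s t)
    · exact fun s t => Subtype.ext (X_one 1 (by decide) _ s t)
    · exact fun s t => Subtype.ext (X_one 1 (by decide) _ s t)
    · exact fun s t => Subtype.ext (B_one _ s t)
  have := key i (-t) h
  simpa [h1.neg] using this

lemma Lv_HH (m : ℕ) {g : Gam p} (hg : g ∈ HH p) {y : Y p} : g.1 y ∈ Lv m ↔ y ∈ Lv m := by
  induction hg using Subgroup.closure_induction generalizing y with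
  | mem g hg => obtain ⟨s, rfl⟩ := hg; exact Lv_xx m _ _
  | one => simp
  | mul g h _ _ hg hh => exact hg.trans hh
  | inv g _ hg => rw [← hg]; simp

lemma Lq_step (m : ℕ) (j : ZMod p) {y : Y p} (hy : y ∈ Lv m) :
    (bb 0 j * tau : Gam p).1 y ∈ Lq (m + 1) j := by
  change B 0 j (Tau y) ∈ Lq (m + 1) j
  have h1 := hy.1
  refine ⟨⟨by simp [B_apply, Bf, Tau_apply, h1], fun k hk => ?_⟩, ?_⟩
  · simp [B_apply, Bf, Tau_apply, hk.ne, hy.2 (k - 1) (by omega)]
  · simp only [B_apply, Bf, Tau_apply, hy.2 (0 - 1) (by omega), true_and, zero_add]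
    rw [if_pos (by omega)]

lemma bb_top (m : ℕ) (t : ZMod p) {y : Y p} (hy : y ∈ Lv m) : (bb m t).1 y = Cc t y := by
  change Bf m t y = Bf (y.1 - 1) t y
  rw [hy.1]; simp

lemma bb_high {m k : ℕ} (h : m < k) (t : ZMod p) {y : Y p} (hy : y ∈ Lv m) : (bb k t).1 y = y := by
  change Bf k t y = y
  have := hy.1
  refine Prod.ext rfl (funext fun j => ?_)
  simp only [Bf]
  rw [if_neg (by omega), add_zero]

/-- the base points -/
def y0 (j : ZMod p) : Y p := (1, fun k => if k = 0 then j else 0)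

lemma y0_mem (j : ZMod p) : y0 j ∈ Lv 0 := ⟨rfl, fun k hk => by simp [y0, hk.ne]⟩

lemma y0_inj : Function.Injective (y0 (p := p)) := fun a b h => by
  simpa [y0] using congrFun (congrArg Prod.snd h) 0

lemma Cc_y0 (t j : ZMod p) : Cc t (y0 j) = y0 (j + t) := by
  refine Prod.ext rfl (funext fun k => ?_)
  simp only [Cc_apply, Bf, y0]
  split_ifs <;> first | omega | ring

lemma xx_y0 (i : Fin 4) (t j : ZMod p) : (xx i t).1 (y0 j) = y0 (j + if i = 3 then t else 0) := by
  have hX : ∀ a, X1 a t (y0 j) = y0 j := fun a => by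
    refine Prod.ext rfl (funext fun k => ?_)
    simp only [X_apply, Xf, y0]
    split_ifs <;> first | omega | ring
  fin_cases i
  · exact (hX _).trans (by simp)
  · exact (hX _).trans (by simp)
  · exact (hX _).trans (by simp)
  · exact ((bb_top 0 t (y0_mem j)).trans (Cc_y0 t j)).trans (by simp)

end Crest.Agent.KEP
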